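import Crest.Agent.N067.W.Defs

/-!
# Row 67, block D (helper1): the one-dimensional design of the master inequality (h93-X4)

`f = f0`.  The profile `h` is a function of the size `r`, `H y = h (1 / y)`; `ζ, s, b, c, kap` are
functions of `U`.  `bu = U b'`, `cu = U c'`, `s = U ζ' / ζ`.
-/

set_option autoImplicit false

open Topology Filter Set

namespace Crest.Agent.N067.D

noncomputable section

/-- the exponential rate -/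
def lam : ℝ := 51 / 25
/-- start of the exponential range -/
def T1 (f : ℝ) : ℝ := 5 / 2 * f - 4 / lam
/-- the middle piece -/
def h2 (f r : ℝ) : ℝ := 2 / (27 * f ^ 5) * (5 / 2 * f - r) ^ 4
def hT (f : ℝ) : ℝ := h2 f (T1 f)
/-- the last piece -/
def h3 (f r : ℝ) : ℝ := hT f * Real.exp (-(lam * (r - T1 f)))

def h (f r : ℝ) : ℝ := if r ≤ f then 1 / r - 5 / (8 * f) else if r ≤ T1 f then h2 f r else h3 f r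
def hd (f r : ℝ) : ℝ := if r ≤ f then -(1 / r ^ 2) else
  if r ≤ T1 f then -(8 / (27 * f ^ 5) * (5 / 2 * f - r) ^ 3) else -(lam * h3 f r)
def H (f y : ℝ) : ℝ := h f (1 / y)
def H1 (f y : ℝ) : ℝ := -(hd f (1 / y) / y ^ 2)
def H2 (f y : ℝ) : ℝ := if 1 / y ≤ f then 0 else
  if 1 / y ≤ T1 f then 40 / (27 * f ^ 5) * (5 / 2 * f - 1 / y) ^ 2 * (1 / y - f) / y ^ 3
  else lam * h3 f (1 / y) * (lam * (1 / y) - 2) / y ^ 3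

/-- the Kato constant -/
def kap (f U : ℝ) : ℝ := if U < hT f then 19 / 20 else if U < 2 / f then 1 / 4 else
  if U < 80 / f then 6 / 5 else 39 / 20

/-- clamp -/
def cl (a b U : ℝ) : ℝ := max a (min U b)
/-- its derivative from the right -/
def ch (a b U : ℝ) : ℝ := if a ≤ U ∧ U < b then 1 else 0

/-- top of the main range -/
def U3 (be Ub : ℝ) : ℝ := Ub * (be / (24 / 25 + be)) ^ 2

def ζ (f be Ub U : ℝ) : ℝ :=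
  cl 0 (hT f) U / hT f * (cl (hT f) (80 / f) U / (80 / f)) ^ (3 / 4 : ℝ) *
    (cl (80 / f) (U3 be Ub) U / U3 be Ub) ^ (51 / 50 : ℝ) *
    (cl (U3 be Ub) (9 * U3 be Ub) U / (9 * U3 be Ub)) ^ (3 / 10 : ℝ)
def s (f be Ub U : ℝ) : ℝ := ch 0 (hT f) U + 3 / 4 * ch (hT f) (80 / f) U +
  51 / 50 * ch (80 / f) (U3 be Ub) U + 3 / 10 * ch (U3 be Ub) (9 * U3 be Ub) U
def b (f be Ub U : ℝ) : ℝ := 24 / 25 / (f * cl (2 / f) (4 / f) U) - 6 / 25 +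
  ((24 / 25 + be) * √(U3 be Ub / cl (U3 be Ub) Ub U) - be)
def bu (f be Ub U : ℝ) : ℝ := -(ch (2 / f) (4 / f) U * (24 / 25 / (f * U))) -
  ch (U3 be Ub) Ub U * ((24 / 25 + be) * √(U3 be Ub / U) / 2)
def c (Ub U : ℝ) : ℝ := 12 / 5 * (1 - cl (Ub / 2) Ub U / Ub)
def cu (Ub U : ℝ) : ℝ := -(12 / 5 * ch (Ub / 2) Ub U * (U / Ub))
/-- the kinks -/
def Ex (f be Ub : ℝ) : Set ℝ :=
  {hT f, 2 / f, 4 / f, 80 / f, U3 be Ub, 9 * U3 be Ub, Ub / 2, Ub}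

/-- admissible parameters -/
structure Par (f be Ub : ℝ) : Prop where
  f1 : 100 ≤ f
  be0 : 0 < be
  be1 : be ≤ 1 / 100
  Ub0 : 0 < Ub
  Ub1 : Ub ≤ 1
  big : (80 / U3 be Ub) ^ 102 ≤ f

/-- the output for the profile `h` (`theorem D.hOut : 100 ≤ f → HOut f`) -/
structure HOut (f : ℝ) : Prop where
  hpos : ∀ r, 0 < r → 0 < h f r ∧ h f r ≤ 1 / r ∧ HasDerivAt (h f) (hd f r) r ∧ hd f r ≤ 0
  hlow : ∀ r, 0 < r → r ≤ f → 3 / (8 * r) ≤ h f r ∧ |hd f r| ≤ 3 / r * h f r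
  hhigh : ∀ r, f ≤ r → |hd f r| ≤ lam * h f r
  hdec : ∀ r, 0 < r → h f r ≤ r * |hd f r|
  anti : StrictAntiOn (h f) (Ioi 0)
  /-- `|hd| ≤ 1 / r²` -/
  hd1 : ∀ r, 0 < r → r ^ 2 * |hd f r| ≤ 1
  sub : ∀ r, 0 < r → 1 / r - 5 / (8 * f) ≤ h f r
  hT0 : 0 < hT f ∧ hT f < 2 / f ∧ 2 * f ≤ T1 f ∧ T1 f ≤ 5 / 2 * f
  tail : ∀ r, T1 f ≤ r → h f r = hT f * Real.exp (-(lam * (r - T1 f)))
  lower : ∀ r, 0 < r → 3 / (8 * f) * Real.exp (-(lam * r)) ≤ h f r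
  mhd : Measurable (hd f)
  des : W.HDes (H f) (H1 f) (H2 f)
  one : ∀ y, 0 < y → H1 f y ≤ 1 ∧ y - 5 / (8 * f) ≤ H f y ∧ H f y ≤ y
  mkap : Measurable (kap f)
  bkap : ∀ U, 0 ≤ kap f U ∧ kap f U ≤ 2
  kato : ∀ k0 x y, 0 ≤ k0 → 0 < x → 0 < y →
    W.Kato (H f) (H1 f) (H2 f) k0 x y (kap f (W.U0 k0 (H f x) (H f y)))

/-- the output for the functions of `U` (`theorem D.zOut : Par f be Ub → ZOut f be Ub`);
`Z0 = ζ (80 / f)`, `K = 10 ^ 7` -/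
structure ZOut (f be Ub : ℝ) : Prop where
  ord : 0 < U3 be Ub ∧ 80 / f ≤ U3 be Ub ∧ 9 * U3 be Ub ≤ Ub / 400
  fin : (Ex f be Ub).Finite
  lip : LocallyLipschitzOn (Ioi 0) (ζ f be Ub) ∧ LocallyLipschitzOn (Ioi 0) (b f be Ub) ∧
    LocallyLipschitzOn (Ioi 0) (c Ub)
  der : ∀ U, 0 < U → U ∉ Ex f be Ub →
    HasDerivAt (ζ f be Ub) (s f be Ub U * ζ f be Ub U / U) U ∧
    HasDerivAt (b f be Ub) (bu f be Ub U / U) U ∧ HasDerivAt (c Ub) (cu Ub U / U) U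
  meas : Measurable (s f be Ub) ∧ Measurable (b f be Ub) ∧ Measurable (bu f be Ub) ∧
    Measurable (c Ub) ∧ Measurable (cu Ub)
  zmono : Monotone (ζ f be Ub)
  zcont : Continuous (ζ f be Ub)
  zbd : ∀ U, 0 < U → 0 < ζ f be Ub U ∧ ζ f be Ub U ≤ 1
  ztop : ∀ U, 9 * U3 be Ub ≤ U → ζ f be Ub U = 1 ∧ s f be Ub U = 0
  z2 : ∀ U θ, 0 < U → 0 ≤ θ → θ ≤ 1 → θ ^ (11 / 10 : ℝ) * ζ f be Ub U ≤ ζ f be Ub (θ * U)
  z1 : ∀ U θ, 0 < U → U ≤ 80 / f → 0 ≤ θ → θ ≤ 1 → θ * ζ f be Ub U ≤ ζ f be Ub (θ * U)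
  zdec : ∀ r, f ≤ r →
    ζ f be Ub (3 * h f r) ≤ 10 ^ 7 * ζ f be Ub (80 / f) * Real.exp (-(r - 3 * f)) ∧
    r ^ 4 * ζ f be Ub (3 * h f r) ≤ 10 ^ 7 * ζ f be Ub (80 / f) * f ^ 4
  /-- below `80 / f` -/
  zsub : ∀ U, 0 < U → U ≤ 80 / f → ζ f be Ub U ≤ ζ f be Ub (80 / f) * (f * U / 80) ^ (3 / 4 : ℝ)
  zmain : ∀ U, 80 / f ≤ U → U ≤ U3 be Ub →
    ζ f be Ub U = ζ f be Ub (80 / f) * (f * U / 80) ^ (51 / 50 : ℝ)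
  zbad1 : ∀ r, 0 < r → ζ f be Ub (80 / f) * Real.exp (-(lam * r)) ≤ 10 ^ 7 * ζ f be Ub (h f r)
  zbad2 : ∀ r, 1 ≤ r → r ≤ f →
    ζ f be Ub (80 / f) * (f / r) ^ (101 / 100 : ℝ) ≤ 10 ^ 7 * ζ f be Ub (h f r)
  zup : ∀ r, 0 < r → ζ f be Ub (3 * h f r) ≤ 3 * Real.exp (lam * T1 f) * Real.exp (-(lam * r))
  /-- the quadratic form is positive -/
  q1 : ∀ U, 0 < U → U ≤ Ub / 400 → c Ub U = 6 / 5 ∧ cu Ub U = 0 ∧ 0 < b f be Ub U ∧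
    53 / 50 * (11 / 5 * s f be Ub U - b f be Ub U) ^ 2 + b f be Ub U / 50 ≤
      bu f be Ub U + 2 * s f be Ub U * b f be Ub U + b f be Ub U * (99 / 100 * kap f U - 1) -
        s f be Ub U ^ 2
  q2 : ∀ U, 0 < U → 0 ≤ s f be Ub U ∧ s f be Ub U ≤ 11 / 10 * b f be Ub U ∧
    0 ≤ b f be Ub U ∧ b f be Ub U ≤ 6 / 5 ∧ -(1 / 2) ≤ bu f be Ub U ∧ bu f be Ub U ≤ 0 ∧
    0 ≤ c Ub U ∧ c Ub U ≤ 6 / 5 ∧ -(12 / 5) ≤ cu Ub U ∧ cu Ub U ≤ 0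
  q3 : ∀ U, Ub / 400 ≤ U → s f be Ub U = 0 ∧ b f be Ub U ≤ 20 * be ∧
    -(10 * be) ≤ bu f be Ub U ∧ kap f U = 39 / 20
  bmain : ∀ U, 4 / f ≤ U → b f be Ub U ≤ 24 / 25 ∧ (U ≤ U3 be Ub → b f be Ub U = 24 / 25)
  btop : ∀ U, U3 be Ub ≤ U → b f be Ub U ≤ be * √(Ub / U)
  bzero : ∀ U, Ub ≤ U → b f be Ub U = 0 ∧ bu f be Ub U = 0 ∧ c Ub U = 0 ∧ cu Ub U = 0

end

end Crest.Agent.N067.D
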