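import Crest.Agent.N067.D.Z1

/-!
# Row 67, block D (helper1): the functions of `U`
-/

set_option autoImplicit false

open Topology Filter Set

namespace Crest.Agent.N067.D

noncomputable section

variable {f be Ub U : ℝ}

theorem ζ_eq (f be Ub : ℝ) : ζ f be Ub = fun U => pf 0 (hT f) 1 U * pf (hT f) (80 / f) (3 / 4) U *
    pf (80 / f) (U3 be Ub) (51 / 50) U * pf (U3 be Ub) (9 * U3 be Ub) (3 / 10) U := by
  funext U
  simp only [ζ, pf, Real.rpow_one]

theorem mul_der {A B : ℝ → ℝ} {α β : ℝ} {S : Set ℝ} (hA : HasDerivWithinAt A (α * A U / U) S U)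
    (hB : HasDerivWithinAt B (β * B U / U) S U) :
    HasDerivWithinAt (fun x => A x * B x) ((α + β) * (A U * B U) / U) S U :=
  (hA.mul hB).congr_deriv (by ring)

theorem ζ_der (P : Par f be Ub) (hT0 : 0 < hT f) (hT2 : hT f < 2 / f) (hU : 0 < U) {S : Set ℝ}
    (hS : S = Ici U ∨ U ∉ Ex f be Ub) :
    HasDerivWithinAt (ζ f be Ub) (s f be Ub U * ζ f be Ub U / U) S U := by
  obtain ⟨o1, o2, o3⟩ := P.o24
  have o4 := P.leU3
  have o6 := P.U30
  simp only [Ex, mem_insert_iff, mem_singleton_iff, not_or] at hS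
  rw [ζ_eq]
  refine (mul_der (mul_der (mul_der
    (pf_der hT0.le hT0 hU (hS.imp_right fun h => ⟨hU.ne', h.1⟩))
    (pf_der (by linarith) (by linarith) hU (hS.imp_right fun h => ⟨h.1, h.2.2.2.1⟩)))
    (pf_der o4 o6 hU (hS.imp_right fun h => ⟨h.2.2.2.1, h.2.2.2.2.1⟩)))
    (pf_der (by linarith) (by linarith) hU
      (hS.imp_right fun h => ⟨h.2.2.2.2.1, h.2.2.2.2.2.1⟩))).congr_deriv ?_
  rw [s, one_mul]

theorem der_inv {f y : ℝ} (f0 : 0 < f) (hy : 0 < y) :
    HasDerivAt (fun y => 24 / 25 / (f * y)) (-(24 / 25 / (f * y) / y)) y :=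
  ((hasDerivAt_const _ (24 / 25 : ℝ)).fun_div ((hasDerivAt_id' _).const_mul f)
    (mul_pos f0 hy).ne').congr_deriv (by field_simp; ring)

theorem der_sqrt {a y : ℝ} (ha : 0 < a) (hy : 0 < y) :
    HasDerivAt (fun y => √(a / y)) (-(√(a / y) / 2 / y)) y := by
  refine (((hasDerivAt_const _ a).fun_div (hasDerivAt_id' _) hy.ne').sqrt
    (div_pos ha hy).ne').congr_deriv ?_
  have h1 := Real.mul_self_sqrt (div_pos ha hy).le
  have h2 := Real.sqrt_pos.2 (div_pos ha hy)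
  generalize √(a / y) = q at h1 h2
  rw [eq_div_iff hy.ne'] at h1
  rw [← h1]
  field_simp
  ring

theorem b_der (P : Par f be Ub) (hU : 0 < U) (hS : U ∉ Ex f be Ub) :
    HasDerivAt (b f be Ub) (bu f be Ub U / U) U := by
  obtain ⟨o1, o2, o3⟩ := P.o24
  have o5 := P.U3le
  have o6 := P.U30
  have o7 := P.Ub0
  have f0 := P.f0
  simp only [Ex, mem_insert_iff, mem_singleton_iff, not_or] at hS
  have p1 : 0 < cl (2 / f) (4 / f) U := cl_pos (by linarith) hU
  have p2 : 0 < cl (U3 be Ub) Ub U := cl_pos o7 hU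
  have d1 := comp_cl_der (S := univ) o2.le (Or.inr ⟨hS.2.1, hS.2.2.1⟩)
    (φ := fun y => 24 / 25 / (f * y)) (φ' := fun y => -(24 / 25 / (f * y) / y))
    (der_inv f0 p1)
  have d2 := comp_cl_der (S := univ) (a := U3 be Ub) (b' := Ub) (by linarith)
    (Or.inr ⟨hS.2.2.2.2.1, hS.2.2.2.2.2.2.2⟩)
    (φ := fun y => √(U3 be Ub / y)) (φ' := fun y => -(√(U3 be Ub / y) / 2 / y))
    (der_sqrt o6 p2)
  rw [← hasDerivWithinAt_univ]
  refine ((d1.sub_const (6 / 25)).add ((d2.const_mul (24 / 25 + be)).sub_const be)).congr_deriv ?_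
  rw [bu]
  ring

theorem c_der (P : Par f be Ub) (hU : 0 < U) (hS : U ∉ Ex f be Ub) :
    HasDerivAt (c Ub) (cu Ub U / U) U := by
  have o7 := P.Ub0
  simp only [Ex, mem_insert_iff, mem_singleton_iff, not_or] at hS
  rw [← hasDerivWithinAt_univ]
  refine ((((cl_der (S := univ) (a := Ub / 2) (b' := Ub) (by linarith)
    (Or.inr hS.2.2.2.2.2.2)).div_const Ub).const_sub 1).const_mul (12 / 5)).congr_deriv ?_
  rw [cu]
  field_simp

theorem b_lip (P : Par f be Ub) : LocallyLipschitzOn (Ioi 0) (b f be Ub) := by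
  obtain ⟨o1, o2, o3⟩ := P.o24
  have h1 := ll_comp (ll_cl (2 / f) (4 / f) (Ioi 0)) (F := fun y => 24 / 25 / (f * y) - 6 / 25)
    fun U hU => (contDiffAt_const.div (contDiffAt_const.mul contDiffAt_id)
      (mul_pos P.f0 (cl_pos (by linarith) hU)).ne').sub contDiffAt_const
  have h2 := ll_comp (ll_cl (U3 be Ub) Ub (Ioi 0))
    (F := fun y => (24 / 25 + be) * √(U3 be Ub / y) - be) fun U hU =>
      (contDiffAt_const.mul ((contDiffAt_const.div contDiffAt_id (cl_pos P.Ub0 hU).ne').sqrt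
        (div_pos P.U30 (cl_pos P.Ub0 hU)).ne')).sub contDiffAt_const
  exact h1.add h2

theorem pow4_exp {x : ℝ} (hx : 0 ≤ x) : (1 + x) ^ 4 * Real.exp (-x) ≤ 72 := by
  have h1 := Real.pow_div_factorial_le_exp (1 + x) (by linarith) 4
  have h2 : Real.exp 1 ≤ 3 := Real.exp_one_lt_three.le
  rw [Real.exp_add] at h1
  have h3 : (1 + x) ^ 4 ≤ 72 * Real.exp x := by
    have : Real.exp 1 * Real.exp x ≤ 3 * Real.exp x :=
      mul_le_mul_of_nonneg_right h2 (Real.exp_pos x).le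
    simp only [Nat.factorial] at h1
    push_cast at h1
    linarith
  rw [Real.exp_neg, ← div_eq_mul_inv, div_le_iff₀ (Real.exp_pos x)]
  exact h3

section tab

variable (P : Par f be Ub) (hT0 : 0 < hT f) (hT2 : hT f < 2 / f)
include P hT0 hT2

theorem q2' (hU : 0 < U) : 0 ≤ s f be Ub U ∧ s f be Ub U ≤ 11 / 10 * b f be Ub U ∧
    0 ≤ b f be Ub U ∧ b f be Ub U ≤ 6 / 5 ∧ -(1 / 2) ≤ bu f be Ub U ∧ bu f be Ub U ≤ 0 ∧
    0 ≤ c Ub U ∧ c Ub U ≤ 6 / 5 ∧ -(12 / 5) ≤ cu Ub U ∧ cu Ub U ≤ 0 := by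
  obtain ⟨o1, o2, o3⟩ := P.o24
  have o4 := P.leU3
  have o5 := P.U3le
  have o7 := P.Ub0
  have b0 := P.be0
  have b1 := P.be1
  have tb := fun U (hU : 0 < U) => table P hT0 hT2 hU
  obtain ⟨a1, a2, a3, a4⟩ := c_bd P hU
  rcases tb U hU with ⟨-, e1, e2, e3, -⟩ | ⟨-, -, e1, e2, e3, -⟩ |
    ⟨-, -, e1, -, w, w1, w2, e2, e3⟩ | ⟨-, -, e1, e2, e3, -⟩ | ⟨-, -, e1, e2, e3, -⟩ |
    ⟨-, -, -, g, -, e2, e3, g1, g2, -, -, -, ⟨-, e1, g4⟩ | ⟨-, e1, g4⟩⟩ | ⟨-, e1, e2, e3, -⟩ <;>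
  rw [e1, e2, e3] <;> exact ⟨by linarith, by linarith, by linarith, by linarith, by linarith,
    by linarith, a1, a2, a3, a4⟩

theorem q3' (h : Ub / 400 ≤ U) : s f be Ub U = 0 ∧ b f be Ub U ≤ 20 * be ∧
    -(10 * be) ≤ bu f be Ub U ∧ kap f U = 39 / 20 := by
  obtain ⟨o1, o2, o3⟩ := P.o24
  have o4 := P.leU3
  have o5 := P.U3le
  have o7 := P.Ub0
  have b0 := P.be0
  have b1 := P.be1
  have tb := fun U (hU : 0 < U) => table P hT0 hT2 hU
  rcases tb U (by linarith) with ⟨a, -⟩ | ⟨-, a, -⟩ | ⟨-, a, -⟩ | ⟨-, a, -⟩ | ⟨-, a, -⟩ |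
    ⟨-, -, e4, g, -, e2, e3, g1, g2, -, -, g3, ⟨a, -⟩ | ⟨-, e1, -⟩⟩ | ⟨-, e1, e2, e3, e4⟩
  any_goals linarith
  · have := g3 h
    exact ⟨e1, by linarith, by linarith, e4⟩
  · exact ⟨e1, by linarith, by linarith, e4⟩

theorem bmain' (h : 4 / f ≤ U) :
    b f be Ub U ≤ 24 / 25 ∧ (U ≤ U3 be Ub → b f be Ub U = 24 / 25) := by
  obtain ⟨o1, o2, o3⟩ := P.o24
  have o4 := P.leU3
  have o5 := P.U3le
  have o7 := P.Ub0
  have b0 := P.be0
  have b1 := P.be1
  have tb := fun U (hU : 0 < U) => table P hT0 hT2 hU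
  rcases tb U (by linarith) with ⟨a, -⟩ | ⟨-, a, -⟩ | ⟨-, a, -⟩ | ⟨-, -, -, e, -⟩ |
    ⟨-, -, -, e, -⟩ | ⟨a, -, -, g, -, e2, -, -, g2, g3, -⟩ | ⟨a, -, e, -⟩
  any_goals linarith
  · exact ⟨e.le, fun _ => e⟩
  · exact ⟨e.le, fun _ => e⟩
  · exact ⟨by linarith, fun h' => by linarith [g3 (le_antisymm h' a)]⟩
  · exact ⟨by linarith, fun h' => by linarith⟩

theorem btop' (h : U3 be Ub ≤ U) : b f be Ub U ≤ be * √(Ub / U) := by
  obtain ⟨o1, o2, o3⟩ := P.o24
  have o4 := P.leU3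
  have o5 := P.U3le
  have o7 := P.Ub0
  have b0 := P.be0
  have b1 := P.be1
  have tb := fun U (hU : 0 < U) => table P hT0 hT2 hU
  rcases tb U (by linarith) with ⟨a, -⟩ | ⟨-, a, -⟩ | ⟨-, a, -⟩ | ⟨-, a, -⟩ |
    ⟨-, a, -⟩ | ⟨-, -, -, g, e, e2, -⟩ | ⟨-, -, e, -⟩
  any_goals linarith
  rw [e]; positivity

theorem bzero' (h : Ub ≤ U) :
    b f be Ub U = 0 ∧ bu f be Ub U = 0 ∧ c Ub U = 0 ∧ cu Ub U = 0 := by
  obtain ⟨o1, o2, o3⟩ := P.o24
  have o4 := P.leU3
  have o5 := P.U3le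
  have o7 := P.Ub0
  have b0 := P.be0
  have b1 := P.be1
  have tb := fun U (hU : 0 < U) => table P hT0 hT2 hU
  obtain ⟨a1, a2⟩ := c_zero P h
  rcases tb U (by linarith) with ⟨a, -⟩ | ⟨-, a, -⟩ | ⟨-, a, -⟩ | ⟨-, a, -⟩ |
    ⟨-, a, -⟩ | ⟨-, a, -⟩ | ⟨-, -, e2, e3, -⟩
  any_goals linarith
  exact ⟨e2, e3, a1, a2⟩

end tab

set_option maxHeartbeats 800000 in
theorem zOut (P : Par f be Ub) (Hh : HOut f) : ZOut f be Ub := by
  obtain ⟨hT0, hT2, hT3, hT4⟩ := Hh.hT0
  obtain ⟨o1, o2, o3⟩ := P.o24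
  have o4 := P.leU3
  have o5 := P.U3le
  have o6 := P.U30
  have o7 := P.Ub0
  have f0 := P.f0
  have f1 := P.f1
  have b0 := P.be0
  have b1 := P.be1
  have o8 : 0 < 80 / f := by linarith
  have tb := fun U (hU : 0 < U) => table P hT0 hT2 hU
  have zc : Continuous (ζ f be Ub) := by
    rw [ζ_eq]
    exact (((pf_cont zero_le_one).mul (pf_cont (by norm_num))).mul (pf_cont (by norm_num))).mul
      (pf_cont (by norm_num))
  have n1 := pf_nonneg (a := 0) (σ := 1) le_rfl hT0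
  have n2 := pf_nonneg (σ := 3 / 4) hT0.le o8
  have n3 := pf_nonneg (σ := 51 / 50) o8.le o6
  have n4 := pf_nonneg (σ := 3 / 10) o6.le (by linarith : 0 < 9 * U3 be Ub)
  have zm : Monotone (ζ f be Ub) := by
    rw [ζ_eq]
    exact (((pf_mono le_rfl hT0 zero_le_one).mul (pf_mono hT0.le o8 (by norm_num)) n1 n2).mul
      (pf_mono o8.le o6 (by norm_num)) (fun U => mul_nonneg (n1 U) (n2 U)) n3).mul
      (pf_mono o6.le (by linarith) (by norm_num))
      (fun U => mul_nonneg (mul_nonneg (n1 U) (n2 U)) (n3 U)) n4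
  have zp : ∀ U, 0 < U → 0 < ζ f be Ub U := fun U hU => by
    rw [ζ_eq]
    exact mul_pos (mul_pos (mul_pos (pf_pos hT0 hU) (pf_pos o8 hU)) (pf_pos o6 hU))
      (pf_pos (by linarith) hU)
  have z0 : ∀ U, 0 ≤ ζ f be Ub U := fun U => by
    rw [ζ_eq]
    exact mul_nonneg (mul_nonneg (mul_nonneg (n1 U) (n2 U)) (n3 U)) (n4 U)
  have zt : ∀ U, 9 * U3 be Ub ≤ U → ζ f be Ub U = 1 := fun U hU => by
    rw [ζ_eq]
    simp only
    rw [pf_one hT0.le hT0 (by linarith), pf_one (by linarith) o8 (by linarith),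
      pf_one o4 o6 (by linarith), pf_one (by linarith) (by linarith) hU]
    norm_num
  have zl : ∀ U, ζ f be Ub U ≤ 1 := fun U =>
    (zm (le_max_left U (9 * U3 be Ub))).trans (zt _ (le_max_right _ _)).le
  have cmp := fun {x y : ℝ} (hx : 0 < x) (hxy : x ≤ y) (σ : ℝ) =>
    pow_cmp zc zp (fun U hU => ζ_der P hT0 hT2 hU (Or.inl rfl)) hx hxy σ
  have sb : ∀ U, 0 < U → s f be Ub U ≤ 11 / 10 ∧
      (U < 80 / f → 3 / 4 ≤ s f be Ub U ∧ s f be Ub U ≤ 1) ∧
      (80 / f ≤ U → U < U3 be Ub → s f be Ub U = 51 / 50) ∧ (U < hT f → s f be Ub U = 1) := by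
    intro U hU
    rcases tb U hU with ⟨a1, e, -⟩ | ⟨a1, a2, e, -⟩ | ⟨a1, a2, e, -⟩ | ⟨a1, a2, e, -⟩ |
      ⟨a1, a2, e, -⟩ | ⟨a1, a2, -, g, -, -, -, -, -, -, -, -, ⟨-, e, -⟩ | ⟨-, e, -⟩⟩ | ⟨a1, e, -⟩ <;>
    rw [e] <;> refine ⟨by norm_num, fun _ => ⟨by linarith, by linarith⟩, fun _ _ => by linarith,
      fun _ => by linarith⟩
  have zs : ∀ U θ σ : ℝ, 0 < U → 0 ≤ θ → θ ≤ 1 → 0 < σ → (∀ x, 0 < x → x < U → s f be Ub x ≤ σ) →
      θ ^ σ * ζ f be Ub U ≤ ζ f be Ub (θ * U) := by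
    intro U θ σ hU h0 h1 hσ hs
    rcases h0.eq_or_lt with e | h0
    · rw [← e, Real.zero_rpow hσ.ne', zero_mul]; exact z0 _
    have hx : 0 < θ * U := mul_pos h0 hU
    have := (cmp hx (mul_le_of_le_one_left hU.le h1) σ).1 fun x h1 h2 => hs x (hx.trans_le h1) h2
    have e : U / (θ * U) = θ⁻¹ := by field_simp
    rw [e, Real.inv_rpow h0.le, ← div_eq_mul_inv, le_div_iff₀ (Real.rpow_pos_of_pos h0 _)] at this
    linarith
  have z1 : ∀ U θ, 0 < U → U ≤ 80 / f → 0 ≤ θ → θ ≤ 1 → θ * ζ f be Ub U ≤ ζ f be Ub (θ * U) :=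
    fun U θ hU h h0 h1 => by
      simpa using zs U θ 1 hU h0 h1 one_pos fun x hx hxU => ((sb x hx).2.1 (hxU.trans_le h)).2
  set Z0 := ζ f be Ub (80 / f) with hZ0
  have Z00 : 0 < Z0 := zp _ o8
  have zsub : ∀ U, 0 < U → U ≤ 80 / f → ζ f be Ub U ≤ Z0 * (f * U / 80) ^ (3 / 4 : ℝ) := by
    intro U hU h
    have := (cmp hU h (3 / 4)).2 fun x h1 h2 => ((sb x (hU.trans_le h1)).2.1 h2).1
    have e : 80 / f / U = (f * U / 80)⁻¹ := by field_simp
    rwa [e, Real.inv_rpow (by positivity), ← div_eq_mul_inv, div_le_iff₀ (by positivity)] at this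
  have zmain : ∀ U, 80 / f ≤ U → U ≤ U3 be Ub → ζ f be Ub U = Z0 * (f * U / 80) ^ (51 / 50 : ℝ) := by
    intro U h1 h2
    have e : U / (80 / f) = f * U / 80 := by field_simp
    have := cmp o8 h1 (51 / 50)
    rw [e] at this
    exact le_antisymm (this.1 fun x a1 a2 => ((sb x (by linarith)).2.2.1 a1 (by linarith)).le)
      (this.2 fun x a1 a2 => ((sb x (by linarith)).2.2.1 a1 (by linarith)).ge)
  have zlin : ∀ U, 0 < U → U ≤ 80 / f → Z0 * (f * U / 80) ≤ ζ f be Ub U := fun U hU h => by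
    have := z1 (80 / f) (f * U / 80) o8 le_rfl (by positivity) (by
      rw [le_div_iff₀ f0] at h; linarith)
    have e : f * U / 80 * (80 / f) = U := by field_simp
    rwa [e, mul_comm] at this
  have hp := fun r (hr : 0 < r) => (Hh.hpos r hr).1
  have l0 : (2 : ℝ) ≤ lam := by rw [lam]; norm_num
  have h80 : ∀ r, f ≤ r → 3 * h f r ≤ 80 / f := fun r hr => by
    have h1 := (Hh.hpos r (by linarith)).2.1
    have h2 : 1 / r ≤ 1 / f := one_div_le_one_div_of_le f0 hr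
    have h3 : 80 / f = 80 * (1 / f) := by ring
    have : 0 < 1 / f := by positivity
    linarith
  have dec : ∀ r, f ≤ r → ζ f be Ub (3 * h f r) ≤ Z0 * Real.exp (-(r - 3 * f)) := by
    intro r hr
    rcases le_total r (3 * f) with h3 | h3
    · exact (zm (h80 r hr)).trans
        (le_mul_of_one_le_right Z00.le (Real.one_le_exp (by linarith)))
    have hr0 : 0 < r := by linarith
    refine (zsub _ (mul_pos three_pos (hp r hr0)) (h80 r hr)).trans
      (mul_le_mul_of_nonneg_left ?_ Z00.le)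
    have e1 : f * (3 * h f r) / 80 ≤ Real.exp (-(lam * (r - T1 f))) := by
      rw [Hh.tail r (by linarith)]
      rw [lt_div_iff₀ f0] at hT2
      nlinarith [Real.exp_pos (-(lam * (r - T1 f)))]
    refine (Real.rpow_le_rpow (by have := hp r hr0; positivity) e1 (by norm_num)).trans ?_
    rw [← Real.exp_mul]
    exact Real.exp_le_exp.2 (by nlinarith)
  refine
    { ord := ⟨o6, o4, o5⟩
      fin := by unfold Ex; exact toFinite _
      lip := ⟨?_, b_lip P, ?_⟩
      der := fun U hU hS => ⟨hasDerivWithinAt_univ.1 (ζ_der P hT0 hT2 hU (Or.inr hS)),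
        b_der P hU hS, c_der P hU hS⟩
      meas := ?_
      zmono := zm
      zcont := zc
      zbd := fun U hU => ⟨zp U hU, zl U⟩
      ztop := fun U hU => ⟨zt U hU, ?_⟩
      z2 := fun U θ hU h0 h1 => zs U θ _ hU h0 h1 (by norm_num) fun x hx _ => (sb x hx).1
      z1 := z1
      zdec := fun r hr => ⟨?_, ?_⟩
      zsub := zsub
      zmain := zmain
      zbad1 := fun r hr => ?_
      zbad2 := fun r h1 hr => ?_
      zup := fun r hr => ?_
      q1 := fun U hU h => ?_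
      q2 := fun U hU => q2' P hT0 hT2 hU
      q3 := fun U h => q3' P hT0 hT2 h
      bmain := fun U h => bmain' P hT0 hT2 h
      btop := fun U h => btop' P hT0 hT2 h
      bzero := fun U h => bzero' P hT0 hT2 h }
  · rw [ζ_eq]
    exact ll_mul (ll_mul (ll_mul (pf_lip hT0) (pf_lip o8)) (pf_lip o6)) (pf_lip (by linarith))
  · exact ll_comp (ll_cl (Ub / 2) Ub _) (F := fun y => 12 / 5 * (1 - y / Ub)) fun _ _ => by fun_prop
  · have m1 := meas_ch
    have m2 := fun a b => (cl_cont a b).measurable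
    unfold s b bu c cu
    refine ⟨by fun_prop, by fun_prop, by fun_prop, by fun_prop, by fun_prop⟩
  · rw [s, ch_ge (by linarith), ch_ge (by linarith), ch_ge (by linarith), ch_ge hU]; norm_num
  · refine (dec r hr).trans (mul_le_mul_of_nonneg_right ?_ (Real.exp_pos _).le)
    linarith
  · have hr0 : 0 < r := by linarith
    have f4 : 0 < Z0 * f ^ 4 := by positivity
    rcases le_total r (3 * f) with h3 | h3
    · have := mul_le_mul (pow_le_pow_left₀ hr0.le h3 4) (zm (h80 r hr)) (z0 _) (by positivity)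
      nlinarith
    · have e1 : r ≤ 3 * f * (1 + (r - 3 * f)) := by nlinarith
      have e2 := pow4_exp (x := r - 3 * f) (by linarith)
      calc r ^ 4 * ζ f be Ub (3 * h f r)
          ≤ (3 * f * (1 + (r - 3 * f))) ^ 4 * (Z0 * Real.exp (-(r - 3 * f))) :=
            mul_le_mul (pow_le_pow_left₀ hr0.le e1 4) (dec r hr) (z0 _) (by positivity)
        _ = 81 * (Z0 * f ^ 4) * ((1 + (r - 3 * f)) ^ 4 * Real.exp (-(r - 3 * f))) := by ring
        _ ≤ 81 * (Z0 * f ^ 4) * 72 := mul_le_mul_of_nonneg_left e2 (by positivity)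
        _ ≤ _ := by nlinarith
  · have e0 : Real.exp (-(lam * r)) ≤ 1 := Real.exp_le_one_iff.2 (by nlinarith)
    have e1 := Real.exp_pos (-(lam * r))
    rcases le_total (h f r) (80 / f) with h8 | h8
    · have e2 := zlin _ (hp r hr) h8
      have e3 := mul_le_mul_of_nonneg_left (Hh.lower r hr) f0.le
      have e4 : f * (3 / (8 * f) * Real.exp (-(lam * r))) = 3 / 8 * Real.exp (-(lam * r)) := by
        field_simp
      rw [e4] at e3
      nlinarith [mul_le_mul_of_nonneg_left e3 Z00.le]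
    · have := zm h8
      nlinarith
  · have hr0 : 0 < r := by linarith
    have a1 := (Hh.hlow r hr0 hr).1
    set U := h f r
    have U0 : 0 < U := hp r hr0
    have a2 : f / r ≤ 640 / 3 * (f * U / 80) := by
      rw [div_le_iff₀ (by positivity)] at a1
      rw [div_le_iff₀ hr0]
      nlinarith
    have a3 : 1 ≤ f / r := (one_le_div hr0).2 hr
    rcases le_total U (80 / f) with h8 | h8
    · have e2 := zlin _ U0 h8
      have e3 : f * U / 80 ≤ 1 := by rw [le_div_iff₀ f0] at h8; linarith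
      have e4 : (f / r) ^ (101 / 100 : ℝ) ≤ (f / r) ^ 2 := by
        rw [← Real.rpow_two]; exact Real.rpow_le_rpow_of_exponent_le a3 (by norm_num)
      have e5 : (f / r) ^ 2 ≤ 10 ^ 7 * (f * U / 80) := by nlinarith
      nlinarith [mul_le_mul_of_nonneg_left (e4.trans e5) Z00.le]
    have a4 : 1 ≤ f * U / 80 := by rw [div_le_iff₀ f0] at h8; linarith
    rcases le_total U (U3 be Ub) with h3 | h3
    · rw [zmain U h8 h3]
      have e1 : (f / r) ^ (101 / 100 : ℝ) ≤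
          (640 / 3 : ℝ) ^ (101 / 100 : ℝ) * (f * U / 80) ^ (101 / 100 : ℝ) := by
        rw [← Real.mul_rpow (by norm_num) (by linarith)]
        exact Real.rpow_le_rpow (by linarith) a2 (by norm_num)
      have e2 : (640 / 3 : ℝ) ^ (101 / 100 : ℝ) ≤ 10 ^ 7 := by
        refine (Real.rpow_le_rpow_of_exponent_le (z := 2) (by norm_num) (by norm_num)).trans ?_
        rw [Real.rpow_two]; norm_num
      have e3 : (f * U / 80) ^ (101 / 100 : ℝ) ≤ (f * U / 80) ^ (51 / 50 : ℝ) :=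
        Real.rpow_le_rpow_of_exponent_le a4 (by norm_num)
      have e4 := e1.trans (mul_le_mul e2 e3 (by positivity) (by norm_num))
      nlinarith [mul_le_mul_of_nonneg_left e4 Z00.le]
    · have e1 := zm h3
      rw [zmain _ o4 le_rfl] at e1
      have e2 : (f / r) ^ (101 / 100 : ℝ) ≤ f ^ (101 / 100 : ℝ) :=
        Real.rpow_le_rpow (by linarith) (div_le_self f0.le h1) (by norm_num)
      have e3 : (80 / U3 be Ub) ^ (51 / 50 : ℝ) ≤ f ^ (1 / 100 : ℝ) := by
        refine le_trans (le_of_eq ?_) (Real.rpow_le_rpow (by positivity) P.big (by norm_num))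
        rw [← Real.rpow_natCast, ← Real.rpow_mul (by positivity)]
        norm_num
      have e4 : f ^ (101 / 100 : ℝ) ≤ (f * U3 be Ub / 80) ^ (51 / 50 : ℝ) := by
        have : f * U3 be Ub / 80 = f / (80 / U3 be Ub) := by field_simp
        rw [this, Real.div_rpow f0.le (by positivity), le_div_iff₀ (by positivity)]
        refine (mul_le_mul_of_nonneg_left e3 (by positivity)).trans (le_of_eq ?_)
        rw [← Real.rpow_add f0]
        norm_num
      have e5 := mul_le_mul_of_nonneg_left (e2.trans e4) Z00.le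
      linarith [z0 U]
  · rw [mul_assoc, ← Real.exp_add]
    rcases le_total r (T1 f) with h1 | h1
    · have := Real.one_le_exp (x := lam * T1 f + -(lam * r)) (by nlinarith)
      linarith [zl (3 * h f r)]
    have U0 : 0 < 3 * h f r := mul_pos three_pos (hp r hr)
    have e1 : 3 * h f r / hT f = 3 * Real.exp (lam * T1 f + -(lam * r)) := by
      rw [Hh.tail r h1, show -(lam * (r - T1 f)) = lam * T1 f + -(lam * r) by ring]
      field_simp
    rw [← e1]
    rcases le_total (hT f) (3 * h f r) with h2 | h2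
    · exact (zl _).trans ((one_le_div hT0).2 h2)
    · have := (cmp U0 h2 1).2 fun x a1 a2 => ((sb x (by linarith)).2.2.2 a2).ge
      rw [Real.rpow_one, ← mul_div_assoc, div_le_iff₀ U0] at this
      rw [le_div_iff₀ hT0]
      nlinarith [zl (hT f)]
  · obtain ⟨a1, a2⟩ := c_low P (U := U) (by linarith)
    obtain ⟨a3, a4⟩ := adm P hT0 hT2 hU h
    exact ⟨a1, a2, a3, by linarith [a4.h1]⟩

end

end Crest.Agent.N067.D
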