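import Crest.Agent.N067.D.HOut
import Crest.Agent.N067.D.Z

/-!
# Row 67, design (helper93): further one-dimensional facts used by the assembly
-/

set_option autoImplicit false

open Topology Filter Set

namespace Crest.Agent.N067.D

variable {f be Ub U : ℝ}

/-! ### the thick weight -/

theorem r4_hd (hf : 100 ≤ f) {r : ℝ} (hr : f ≤ r) : r ^ 4 * |hd f r| ≤ 7 * f ^ 2 := by
  have H := hOut hf
  have f0 : 0 < f := by linarith
  have r0 : 0 < r := by linarith
  obtain ⟨t0, -, t2, t3⟩ := H.hT0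
  rcases le_total r (T1 f) with h1 | h1
  · have := H.hd1 r r0
    calc r ^ 4 * |hd f r| = r ^ 2 * (r ^ 2 * |hd f r|) := by ring
      _ ≤ r ^ 2 * 1 := by gcongr
      _ ≤ (5 / 2 * f) ^ 2 * 1 := by gcongr; linarith
      _ ≤ 7 * f ^ 2 := by nlinarith
  · have a1 := H.hhigh r hr
    rw [H.tail r h1] at a1
    have T0 : 0 < T1 f := by linarith
    have a2 : r ^ 4 * Real.exp (-(lam * (r - T1 f))) ≤ T1 f ^ 4 := by
      have b1 : r ≤ T1 f * Real.exp (lam * (r - T1 f) / 4) := by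
        have := Real.add_one_le_exp (lam * (r - T1 f) / 4)
        have b2 : r - T1 f ≤ T1 f * (lam * (r - T1 f) / 4) := by
          rw [lam]; nlinarith
        nlinarith
      have b3 : r ^ 4 ≤ T1 f ^ 4 * Real.exp (lam * (r - T1 f)) := by
        calc r ^ 4 ≤ (T1 f * Real.exp (lam * (r - T1 f) / 4)) ^ 4 := by gcongr
          _ = _ := by
            rw [mul_pow, ← Real.exp_nat_mul]; congr 2; push_cast; ring
      rw [Real.exp_neg, ← div_eq_mul_inv, div_le_iff₀ (Real.exp_pos _)]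
      exact b3
    have a3 : hT f ≤ 2 / f ^ 5 := by
      have e : hT f = 2 / (27 * f ^ 5) * (4 / lam) ^ 4 := by rw [hT, h2, T1]; ring
      rw [e, lam, div_mul_eq_mul_div, div_le_div_iff₀ (by positivity) (by positivity)]
      nlinarith [pow_pos f0 5]
    have a4 : T1 f ^ 4 ≤ (5 / 2 * f) ^ 4 := by gcongr
    have l0 : 0 < lam := by rw [lam]; norm_num
    calc r ^ 4 * |hd f r| ≤ r ^ 4 * (lam * (hT f * Real.exp (-(lam * (r - T1 f))))) := by gcongr
      _ = lam * hT f * (r ^ 4 * Real.exp (-(lam * (r - T1 f)))) := by ring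
      _ ≤ lam * (2 / f ^ 5) * (5 / 2 * f) ^ 4 := by gcongr; exact a2.trans a4
      _ = lam * 2 * (5 / 2) ^ 4 / f := by field_simp
      _ ≤ 7 * f ^ 2 := by
        rw [div_le_iff₀ f0, lam]; nlinarith [mul_pos f0 f0]

theorem zsq_le (Z : ZOut f be Ub) (f0 : 0 < f) (hU : 0 < U) (h2 : U ≤ 80 / f) :
    ζ f be Ub U ^ 2 ≤ ζ f be Ub (80 / f) ^ 2 * (f * U / 80) := by
  have a0 : 0 < f * U / 80 := by positivity
  have a1 : f * U / 80 ≤ 1 := by
    rw [le_div_iff₀ f0] at h2; linarith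
  have a2 := Z.zsub U hU h2
  have a3 := (Z.zbd U hU).1
  calc ζ f be Ub U ^ 2 ≤ (ζ f be Ub (80 / f) * (f * U / 80) ^ (3 / 4 : ℝ)) ^ 2 := by gcongr
    _ = ζ f be Ub (80 / f) ^ 2 * (f * U / 80) ^ (3 / 2 : ℝ) := by
      rw [mul_pow, ← Real.rpow_natCast ((f * U / 80) ^ (3 / 4 : ℝ)), ← Real.rpow_mul a0.le]
      norm_num
    _ ≤ ζ f be Ub (80 / f) ^ 2 * (f * U / 80) ^ (1 : ℝ) := by
      gcongr ?_ * ?_
      exact Real.rpow_le_rpow_of_exponent_ge a0 a1 (by norm_num)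
    _ = _ := by rw [Real.rpow_one]

/-- the weight of a thick side below `80 / f` -/
theorem thick (hf : 100 ≤ f) (Z : ZOut f be Ub) {r : ℝ} (hr : 0 < r) (h1 : h f r ≤ U)
    (h2 : U ≤ 80 / f) : r * |hd f r| / U * ζ f be Ub U ^ 2 ≤
      3 * ζ f be Ub (80 / f) ^ 2 * min 1 ((f / r) ^ 3) := by
  have H := hOut hf
  have f0 : 0 < f := by linarith
  have U0 : 0 < U := (H.hpos r hr).1.trans_le h1
  rcases le_total r f with h3 | h3
  · rw [min_eq_left (one_le_pow₀ ((one_le_div hr).2 h3)), mul_one]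
    have a1 := (H.hlow r hr h3).2
    have a2 : r * |hd f r| / U ≤ 3 := by
      rw [div_le_iff₀ U0]
      calc r * |hd f r| ≤ r * (3 / r * h f r) := by gcongr
        _ = 3 * h f r := by field_simp
        _ ≤ 3 * U := by gcongr
    have a3 := Z.zmono h2
    have a4 := (Z.zbd U U0).1
    gcongr
  · have a0 : (f / r) ^ 3 ≤ 1 := pow_le_one₀ (by positivity) ((div_le_one hr).2 h3)
    rw [min_eq_right a0]
    have a1 := r4_hd hf h3
    have a2 := zsq_le Z f0 U0 h2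
    have a3 : r * |hd f r| ≤ 7 * f ^ 2 / r ^ 3 := by
      rw [le_div_iff₀ (by positivity)]; linarith
    calc r * |hd f r| / U * ζ f be Ub U ^ 2
        ≤ 7 * f ^ 2 / r ^ 3 / U * (ζ f be Ub (80 / f) ^ 2 * (f * U / 80)) := by gcongr
      _ = 7 / 80 * ζ f be Ub (80 / f) ^ 2 * (f / r) ^ 3 := by field_simp
      _ ≤ _ := by gcongr; norm_num

/-- `η³ min (1, (f/r)³) B² ≤ 2 f³ F (B²)` at thick points -/
theorem min_le_F {η r B : ℝ} (f0 : 0 < f) (η0 : 0 < η) (η1 : η ≤ 1) (hr : 0 < r)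
    (hB : η ≤ r * B) : η ^ 3 * min 1 ((f / r) ^ 3) * B ^ 2 ≤
      2 * (f ^ 3 * ((B ^ 2) ^ (5 / 2 : ℝ) / √(1 + f ^ 2 * B ^ 2))) := by
  have B0 : 0 < B := (mul_pos_iff_of_pos_left hr).1 (η0.trans_le hB)
  have e1 : (B ^ 2) ^ (5 / 2 : ℝ) = B ^ 5 := by
    rw [← Real.rpow_natCast B 2, ← Real.rpow_mul B0.le]; norm_num
  rw [e1]
  set x := f * B with hx
  have x0 : 0 < x := by positivity
  have e2 : f ^ 2 * B ^ 2 = x ^ 2 := by rw [hx]; ring
  have s0 : 0 < √(1 + x ^ 2) := Real.sqrt_pos.2 (by positivity)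
  have e3 : 2 * (f ^ 3 * (B ^ 5 / √(1 + f ^ 2 * B ^ 2))) = 2 * x ^ 3 / √(1 + x ^ 2) * B ^ 2 := by
    rw [e2, hx]; ring
  rw [e3]
  gcongr
  rw [le_div_iff₀ s0]
  have m0 : 0 ≤ min 1 ((f / r) ^ 3) := by positivity
  rcases le_total x 1 with h1 | h1
  · have a1 : √(1 + x ^ 2) ≤ 2 := Real.sqrt_le_iff.2 ⟨by norm_num, by nlinarith⟩
    have a2 : η * (f / r) ≤ x := by
      rw [← mul_div_assoc, div_le_iff₀ hr, hx]; nlinarith
    calc η ^ 3 * min 1 ((f / r) ^ 3) * √(1 + x ^ 2) ≤ η ^ 3 * (f / r) ^ 3 * 2 := by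
          gcongr; exact min_le_right _ _
      _ = 2 * (η * (f / r)) ^ 3 := by ring
      _ ≤ _ := by gcongr
  · have a1 : √(1 + x ^ 2) ≤ 2 * x := Real.sqrt_le_iff.2 ⟨by positivity, by nlinarith⟩
    have a2 : η ^ 3 ≤ 1 := pow_le_one₀ η0.le η1
    calc η ^ 3 * min 1 ((f / r) ^ 3) * √(1 + x ^ 2) ≤ 1 * 1 * (2 * x) := by
          gcongr; exact min_le_left _ _
      _ ≤ 2 * x ^ 3 := by nlinarith [mul_pos x0 x0]

/-- the thick error is paid by the SSY integrand -/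
theorem thickF (hf : 100 ≤ f) (Z : ZOut f be Ub) {η r B : ℝ} (η0 : 0 < η) (η1 : η ≤ 1)
    (hr : 0 < r) (h1 : h f r ≤ U) (h2 : U ≤ 80 / f) (hB : η ≤ r * B) :
    r * |hd f r| / U * ζ f be Ub U ^ 2 * B ^ 2 ≤ 6 / η ^ 3 *
      (ζ f be Ub (80 / f) ^ 2 * f ^ 3 * ((B ^ 2) ^ (5 / 2 : ℝ) / √(1 + f ^ 2 * B ^ 2))) := by
  have a1 := thick hf Z hr h1 h2
  have a2 := min_le_F (f := f) (by linarith) η0 η1 hr hB
  have a3 : 0 < η ^ 3 := by positivity
  rw [div_mul_eq_mul_div (6 : ℝ), le_div_iff₀ a3]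
  calc r * |hd f r| / U * ζ f be Ub U ^ 2 * B ^ 2 * η ^ 3
      ≤ 3 * ζ f be Ub (80 / f) ^ 2 * min 1 ((f / r) ^ 3) * B ^ 2 * η ^ 3 := by gcongr
    _ = 3 * ζ f be Ub (80 / f) ^ 2 * (η ^ 3 * min 1 ((f / r) ^ 3) * B ^ 2) := by ring
    _ ≤ 3 * ζ f be Ub (80 / f) ^ 2 *
        (2 * (f ^ 3 * ((B ^ 2) ^ (5 / 2 : ℝ) / √(1 + f ^ 2 * B ^ 2)))) := by gcongr
    _ = _ := by ring

/-! ### the multiplier `b` -/

/-- the potential above `80 / f` -/
theorem potb (hf : 100 ≤ f) (Z : ZOut f be Ub) (hU : 80 / f ≤ U) :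
    b f be Ub U * (1 + 2 * (5 / (8 * f)) / U) ≤ 39 / 40 := by
  have f0 : 0 < f := by linarith
  have U0 : 0 < U := lt_of_lt_of_le (by positivity) hU
  have a1 := (Z.bmain U (le_trans (by gcongr; norm_num) hU)).1
  have a2 : 2 * (5 / (8 * f)) / U ≤ 1 / 64 := by
    rw [div_le_iff₀ U0]
    calc 2 * (5 / (8 * f)) = 1 / 64 * (80 / f) := by field_simp; norm_num
      _ ≤ _ := by gcongr
  calc b f be Ub U * (1 + 2 * (5 / (8 * f)) / U) ≤ 24 / 25 * (1 + 1 / 64) := by gcongr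
    _ ≤ 39 / 40 := by norm_num

theorem U3_pos (P : Par f be Ub) : 0 < U3 be Ub := by
  have := P.be0; have := P.Ub0; unfold U3; positivity

theorem b_anti (P : Par f be Ub) : Antitone (b f be Ub) := fun U U' hU => by
  have f0 : 0 < f := by linarith [P.f1]
  have u0 := U3_pos P
  have b0 := P.be0
  have a1 : 0 < cl (2 / f) (4 / f) U := lt_of_lt_of_le (by positivity) (le_cl _ _ _)
  have a2 : 0 < cl (U3 be Ub) Ub U := u0.trans_le (le_cl _ _ _)
  have a3 := cl_mono (2 / f) (4 / f) hU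
  have a4 := cl_mono (U3 be Ub) Ub hU
  unfold b
  gcongr

theorem b_low (P : Par f be Ub) (Z : ZOut f be Ub) (hU : U ≤ U3 be Ub) :
    24 / 25 ≤ b f be Ub U := by
  have f0 : 0 < f := by linarith [P.f1]
  have := (Z.bmain (U3 be Ub) (le_trans (by gcongr; norm_num) Z.ord.2.1)).2 le_rfl
  rw [← this]; exact b_anti P hU

/-- the value of `b` on the top range -/
theorem b_top (P : Par f be Ub) (Z : ZOut f be Ub) (h1 : U3 be Ub ≤ U) (h2 : U ≤ Ub) :
    b f be Ub U = be * (√(Ub / U) - 1) := by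
  have f0 : 0 < f := by linarith [P.f1]
  have u0 := U3_pos P
  have b0 := P.be0
  have U0 : 0 < U := u0.trans_le h1
  have a1 : 4 / f ≤ U := le_trans (le_trans (by gcongr; norm_num) Z.ord.2.1) h1
  have e : U3 be Ub / U = (be / (24 / 25 + be)) ^ 2 * (Ub / U) := by unfold U3; ring
  rw [b, cl_of_ge (by gcongr; norm_num) a1, cl_of_mem h1 h2, e, Real.sqrt_mul (by positivity),
    Real.sqrt_sq (by positivity)]
  field_simp
  ring

theorem be_le_b (P : Par f be Ub) (Z : ZOut f be Ub) (hU : 0 < U) (h2 : U ≤ Ub / 400) :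
    19 * be ≤ b f be Ub U := by
  have u1 := P.Ub0
  have b0 := P.be0
  have a1 : U3 be Ub ≤ Ub / 400 := by linarith [Z.ord.1, Z.ord.2.2]
  have a2 := b_top P Z a1 (by linarith)
  have a3 : √(Ub / (Ub / 400)) = 20 := by
    rw [show Ub / (Ub / 400) = 20 ^ 2 by field_simp; norm_num, Real.sqrt_sq (by norm_num)]
  have := b_anti P h2
  rw [a2, a3] at this
  linarith

/-- the ratio bound needed at the cut -/
theorem b_ratio (P : Par f be Ub) (Z : ZOut f be Ub) {U1 : ℝ} (hU : 0 < U) (h0 : 0 < U1)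
    (h2 : U1 ≤ Ub / 400) : b f be Ub U + be ≤ 2 * max 1 (U1 / U) * b f be Ub U1 := by
  have b0 := P.be0
  have u1 := P.Ub0
  have u0 := U3_pos P
  have a1 := be_le_b P Z h0 h2
  have q0 : 0 < U1 / U := by positivity
  have a2 := (Z.q2 U hU).2.2.2.1
  have m1 := le_max_left 1 (U1 / U)
  have m2 := le_max_right 1 (U1 / U)
  rcases le_total U1 U with h3 | h3
  · have := b_anti P h3
    nlinarith
  rcases le_total U1 (U3 be Ub) with h4 | h4
  · have := b_low P Z h4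
    nlinarith [P.be1]
  have q1 : 1 ≤ U1 / U := (one_le_div hU).2 h3
  have e1 := b_top P Z h4 (by linarith)
  -- `b U + be ≤ (5/4) be √(Ub / U)`
  have a3 : b f be Ub U + be ≤ 5 / 4 * (be * √(Ub / U)) := by
    rcases le_total (U3 be Ub) U with h5 | h5
    · rw [b_top P Z h5 (by linarith)]
      have : 0 ≤ be * √(Ub / U) := by positivity
      nlinarith
    · have c1 : √(Ub / U3 be Ub) ≤ √(Ub / U) := by gcongr
      have c2 : √(Ub / U3 be Ub) = (24 / 25 + be) / be := by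
        rw [show Ub / U3 be Ub = ((24 / 25 + be) / be) ^ 2 by unfold U3; field_simp,
          Real.sqrt_sq (by positivity)]
      have c3 : 24 / 25 + be ≤ be * √(Ub / U) := by
        rw [c2, div_le_iff₀ b0] at c1; linarith
      linarith
  have a4 : √(Ub / U) ≤ √(Ub / U1) * (U1 / U) := by
    rw [show Ub / U = Ub / U1 * (U1 / U) by field_simp, Real.sqrt_mul (by positivity)]
    gcongr
    exact Real.sqrt_le_iff.2 ⟨q0.le, by nlinarith⟩
  have a5 : be * √(Ub / U1) ≤ 20 / 19 * b f be Ub U1 := by nlinarith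
  calc b f be Ub U + be ≤ 5 / 4 * (be * (√(Ub / U1) * (U1 / U))) := a3.trans (by gcongr)
    _ = 5 / 4 * (be * √(Ub / U1)) * (U1 / U) := by ring
    _ ≤ 5 / 4 * (20 / 19 * b f be Ub U1) * (U1 / U) := by gcongr
    _ ≤ _ := by nlinarith

/-! ### admissibility of the quadratic form -/

theorem admk (P : Par f be Ub) (Z : ZOut f be Ub) (hU : 0 < U) (h2 : U ≤ Ub / 400) {k : ℝ}
    (hk : 99 / 100 * kap f U ≤ k) :
    H.Adm (bu f be Ub U + 2 * s f be Ub U * b f be Ub U + b f be Ub U * (k - 1)) (b f be Ub U)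
      (s f be Ub U) ∧ b f be Ub U / 50 ≤
      bu f be Ub U + 2 * s f be Ub U * b f be Ub U + b f be Ub U * (k - 1) - s f be Ub U ^ 2 := by
  obtain ⟨-, -, b0, q1⟩ := Z.q1 U hU h2
  obtain ⟨s0, -, -, b1, -⟩ := Z.q2 U hU
  have m1 : b f be Ub U * (99 / 100 * kap f U - 1) ≤ b f be Ub U * (k - 1) := by gcongr
  have f0 : 0 < f := by linarith [P.f1]
  obtain ⟨t0, t1, -⟩ := (hOut P.f1).hT0
  obtain ⟨u0, u1, u2⟩ := Z.ord
  have g1 : 2 / f < 80 / f := by gcongr; norm_num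
  have sq := sq_nonneg (11 / 5 * s f be Ub U - b f be Ub U)
  refine ⟨H.Adm.mono (a := bu f be Ub U + 2 * s f be Ub U * b f be Ub U +
    b f be Ub U * (99 / 100 * kap f U - 1)) ?_ (by linarith), by nlinarith⟩
  rcases lt_or_ge U (U3 be Ub) with h3 | h3
  · have b2 := b_low P Z h3.le
    have hs : s f be Ub U = 1 ∧ b f be Ub U = 6 / 5 ∨ s f be Ub U = 3 / 4 ∨
        s f be Ub U = 51 / 50 ∧ b f be Ub U = 24 / 25 := by
      rcases lt_or_ge U (hT f) with h4 | h4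
      · refine Or.inl ⟨?_, ?_⟩
        · rw [s, ch_one hU.le h4, ch_lt h4, ch_lt (by linarith), ch_lt h3]; norm_num
        · rw [b, cl_of_le (by linarith), cl_of_le h3.le, div_self u0.ne', Real.sqrt_one]
          field_simp; ring
      rcases lt_or_ge U (80 / f) with h5 | h5
      · refine Or.inr (Or.inl ?_)
        rw [s, ch_ge h4, ch_one h4 h5, ch_lt h5, ch_lt h3]; norm_num
      · refine Or.inr (Or.inr ⟨?_, (Z.bmain U (le_trans (by gcongr; norm_num) h5)).2 h3.le⟩)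
        rw [s, ch_ge h4, ch_ge h5, ch_one h5 h3, ch_lt h3]; norm_num
    rcases hs with ⟨e1, e2⟩ | e1 | ⟨e1, e2⟩
    · rw [e1, e2] at q1 ⊢
      exact ⟨by linarith, by linarith, by linarith, by linarith, by norm_num, by norm_num⟩
    · rw [e1] at q1 ⊢
      refine ⟨by linarith, ?_, ?_, ?_, b0.le, by norm_num⟩ <;> nlinarith
    · rw [e1, e2] at q1 ⊢
      exact ⟨by linarith, by linarith, by linarith, by linarith, by norm_num, by norm_num⟩
  · have be0 := P.be0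
    have be1 := P.be1
    have u3 := P.Ub0
    have a0 : 4 / f ≤ U := le_trans (le_trans (by gcongr; norm_num) u1) h3
    have e1 : kap f U = 39 / 20 := by
      rw [kap, if_neg (by linarith), if_neg (by linarith), if_neg (by linarith)]
    have e2 : bu f be Ub U = -((b f be Ub U + be) / 2) := by
      rw [bu, b, ch_ge a0, ch_one h3 (by linarith), cl_of_ge (by gcongr; norm_num) a0,
        cl_of_mem h3 (by linarith)]
      field_simp; ring
    have b2 := be_le_b P Z hU h2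
    have b3 := (Z.bmain U a0).1
    rcases lt_or_ge U (9 * U3 be Ub) with h4 | h4
    · have e3 : s f be Ub U = 3 / 10 := by
        rw [s, ch_ge (by linarith), ch_ge (by linarith), ch_ge h3, ch_one h3 h4]; norm_num
      have b4 : 3 / 10 ≤ b f be Ub U := by
        have c1 := b_anti P h4.le
        have c2 : b f be Ub (9 * U3 be Ub) = (24 / 25 + be) / 3 - be := by
          rw [b, cl_of_ge (by gcongr; norm_num) (by linarith), cl_of_mem (by linarith) (by linarith),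
            show U3 be Ub / (9 * U3 be Ub) = (1 / 3) ^ 2 by field_simp; norm_num,
            Real.sqrt_sq (by norm_num)]
          field_simp; ring
        linarith
      rw [e3] at q1 ⊢
      refine ⟨by linarith, ?_, ?_, ?_, b0.le, by norm_num⟩ <;> rw [e1, e2] <;> nlinarith
    · rw [(Z.ztop U h4).2] at q1 ⊢
      refine ⟨by linarith, ?_, ?_, ?_, b0.le, le_rfl⟩ <;> rw [e1, e2] <;> nlinarith

/-- the Kato factor of `W.GD` -/
theorem k_ge {κ η ε k0 : ℝ} (h0 : 0 ≤ κ) (h1 : η ≤ 1 / 1000) (e0 : 0 ≤ ε) (e1 : ε ≤ 1 / 1000)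
    (k1 : 0 ≤ k0) (k2 : k0 ≤ 1 / 1000) :
    99 / 100 * κ ≤ (1 - η) * κ / ((1 + ε + k0) * (1 + k0)) := by
  rw [le_div_iff₀ (by positivity)]
  have a1 : (1 + ε + k0) * (1 + k0) ≤ (1 + 2 / 1000) * (1 + 1 / 1000) :=
    mul_le_mul (by linarith) (by linarith) (by linarith) (by norm_num)
  nlinarith

end Crest.Agent.N067.D
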