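import Crest.Agent.N067.W.TLm

/-!
# Row 67, design (helper93): the profile `h` and `H y = h (1 / y)`, convexity, Kato constants
-/

set_option autoImplicit false

open Topology Filter Set

namespace Crest.Agent.N067.Ds

noncomputable section

/-- gluing of two differentiable pieces -/
theorem hasDerivAt_ite {f g : ℝ → ℝ} {f' g' a x : ℝ} (hf : x ≤ a → HasDerivAt f f' x)
    (hg : a ≤ x → HasDerivAt g g' x) (h0 : f a = g a) (h1 : x = a → f' = g') :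
    HasDerivAt (fun r => if r ≤ a then f r else g r) (if x ≤ a then f' else g') x := by
  rcases lt_trichotomy x a with h | h | h
  · rw [if_pos h.le]
    refine (hf h.le).congr_of_eventuallyEq ?_
    filter_upwards [Iio_mem_nhds h] with r hr
    exact if_pos (le_of_lt hr)
  · subst h
    rw [if_pos le_rfl]
    have e1 : HasDerivWithinAt (fun r => if r ≤ x then f r else g r) f' (Iic x) x :=
      (hf le_rfl).hasDerivWithinAt.congr (fun r hr => if_pos hr) (if_pos le_rfl)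
    have e2 : HasDerivWithinAt (fun r => if r ≤ x then f r else g r) f' (Ici x) x := by
      rw [h1 rfl]
      refine (hg le_rfl).hasDerivWithinAt.congr (fun r hr => ?_) (by rw [if_pos le_rfl, h0])
      rcases eq_or_lt_of_le (mem_Ici.1 hr) with e | e
      · rw [← e, if_pos le_rfl, h0]
      · exact if_neg (not_le.2 e)
    have := e1.union e2
    rwa [Iic_union_Ici, hasDerivWithinAt_univ] at this
  · rw [if_neg (not_le.2 h)]
    refine (hg h.le).congr_of_eventuallyEq ?_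
    filter_upwards [Ioi_mem_nhds h] with r hr
    exact if_neg (not_le.2 hr)

/-- lower slope -/
def Slp (G : ℝ → ℝ) (y c : ℝ) : Prop :=
  ∀ ε > 0, ∀ᶠ s in 𝓝 (0 : ℝ), (c - ε) * s ^ 2 ≤ (G (y + s) - G y) * s

theorem Slp.of_deriv {G : ℝ → ℝ} {y a c : ℝ} (h : HasDerivAt G a y) (hc : c ≤ a) : Slp G y c := by
  intro ε hε
  have h1 := (hasDerivAt_iff_isLittleO_nhds_zero.1 h).bound hε
  filter_upwards [h1] with s hs
  simp only [smul_eq_mul, Real.norm_eq_abs] at hs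
  have h2 : |(G (y + s) - G y - s * a) * s| ≤ ε * s ^ 2 := by
    rw [abs_mul, ← sq_abs s, pow_two, ← mul_assoc]; gcongr
  have h3 := neg_abs_le ((G (y + s) - G y - s * a) * s)
  nlinarith [mul_le_mul_of_nonneg_right hc (sq_nonneg s)]

theorem Slp.of_or {G A B : ℝ → ℝ} {y c : ℝ} (hA : Slp A y c) (hB : Slp B y c)
    (h : ∀ᶠ s in 𝓝 y, G s = A s ∨ G s = B s) (e1 : G y = A y) (e2 : G y = B y) : Slp G y c := by
  intro ε hε
  have h0 : Tendsto (fun s : ℝ => y + s) (𝓝 0) (𝓝 y) :=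
    Continuous.tendsto' (by fun_prop) 0 y (by simp)
  filter_upwards [hA ε hε, hB ε hε, h0.eventually h] with s h1 h2 h3
  rcases h3 with h3 | h3
  · rwa [h3, e1]
  · rwa [h3, e2]

/-- the final exponential rate -/
def lam : ℝ := 51 / 25
def TT (f0 : ℝ) : ℝ := 5 / 2 * f0
def T1 (f0 : ℝ) : ℝ := TT f0 - 4 / lam
/-- `h T1` -/
def h1 (f0 : ℝ) : ℝ := 2 / 27 * (4 / lam) ^ 4 / f0 ^ 5
def p3 (f0 r : ℝ) : ℝ := h1 f0 * Real.exp (-(lam * (r - T1 f0)))

/-- the profile -/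
def hh (f0 r : ℝ) : ℝ := if r ≤ f0 then 1 / r - 5 / (8 * f0) else
  if r ≤ T1 f0 then 2 / 27 * (TT f0 - r) ^ 4 / f0 ^ 5 else p3 f0 r
/-- its derivative -/
def hd (f0 r : ℝ) : ℝ := if r ≤ f0 then -(1 / r ^ 2) else
  if r ≤ T1 f0 then -(8 / 27 * (TT f0 - r) ^ 3 / f0 ^ 5) else -(lam * p3 f0 r)
def A2 (f0 r : ℝ) : ℝ := 8 / 27 * (r ^ 2 * (TT f0 - r) ^ 3) / f0 ^ 5
def A3 (f0 r : ℝ) : ℝ := lam * (r ^ 2 * p3 f0 r)
def B2 (f0 r : ℝ) : ℝ := 40 / 27 * (r * (TT f0 - r) ^ 2 * (r - f0)) / f0 ^ 5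
def B3 (f0 r : ℝ) : ℝ := lam * (r * p3 f0 r * (lam * r - 2))
/-- `- r² h' r` -/
def g1 (f0 r : ℝ) : ℝ := if r ≤ f0 then 1 else if r ≤ T1 f0 then A2 f0 r else A3 f0 r
def g2 (f0 r : ℝ) : ℝ := if r ≤ f0 then 0 else if r ≤ T1 f0 then B2 f0 r else B3 f0 r

def HH (f0 y : ℝ) : ℝ := hh f0 y⁻¹
def H1 (f0 y : ℝ) : ℝ := g1 f0 y⁻¹
def H2 (f0 y : ℝ) : ℝ := y⁻¹ ^ 2 * g2 f0 y⁻¹

variable {f0 r : ℝ}

theorem lam_pos : 0 < lam := by norm_num [lam]
theorem four_lam : 4 / lam = 100 / 51 := by norm_num [lam]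
theorem T1_eq (f0 : ℝ) : T1 f0 = 5 / 2 * f0 - 100 / 51 := by rw [T1, TT, four_lam]
theorem TT_sub (f0 : ℝ) : TT f0 - T1 f0 = 4 / lam := by rw [T1]; ring
theorem T1_ge (hf : 100 ≤ f0) : 2 * f0 ≤ T1 f0 := by rw [T1_eq]; linarith
theorem T1_lt (f0 : ℝ) : T1 f0 < TT f0 := by rw [T1_eq, TT]; linarith
theorem h1_pos (hf : 100 ≤ f0) : 0 < h1 f0 := by
  have := lam_pos
  have : 0 < f0 := by linarith
  unfold h1; positivity
theorem p3_pos (hf : 100 ≤ f0) (r : ℝ) : 0 < p3 f0 r := mul_pos (h1_pos hf) (Real.exp_pos _)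
theorem p3_T1 (f0 : ℝ) : p3 f0 (T1 f0) = h1 f0 := by simp [p3]

theorem hh_low (h : r ≤ f0) : hh f0 r = 1 / r - 5 / (8 * f0) := if_pos h
theorem hd_low (h : r ≤ f0) : hd f0 r = -(1 / r ^ 2) := if_pos h

theorem hh_mid (hf : 100 ≤ f0) (h : f0 ≤ r) (h' : r ≤ T1 f0) :
    hh f0 r = 2 / 27 * (TT f0 - r) ^ 4 / f0 ^ 5 := by
  rcases h.eq_or_lt with e | e
  · subst e
    rw [hh_low le_rfl, TT]; field_simp; ring
  · rw [hh, if_neg (not_le.2 e), if_pos h']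

theorem hd_mid (hf : 100 ≤ f0) (h : f0 ≤ r) (h' : r ≤ T1 f0) :
    hd f0 r = -(8 / 27 * (TT f0 - r) ^ 3 / f0 ^ 5) := by
  rcases h.eq_or_lt with e | e
  · subst e
    rw [hd_low le_rfl, TT]; field_simp; ring
  · rw [hd, if_neg (not_le.2 e), if_pos h']

theorem hh_top (hf : 100 ≤ f0) (h : T1 f0 ≤ r) : hh f0 r = p3 f0 r := by
  have := T1_ge hf
  rcases h.eq_or_lt with e | e
  · rw [← e, hh_mid hf (by linarith) le_rfl, TT_sub, p3_T1, h1]
  · rw [hh, if_neg (not_le.2 (by linarith)), if_neg (not_le.2 e)]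

theorem hd_top (hf : 100 ≤ f0) (h : T1 f0 ≤ r) : hd f0 r = -(lam * p3 f0 r) := by
  have := T1_ge hf
  rcases h.eq_or_lt with e | e
  · rw [← e, hd_mid hf (by linarith) le_rfl, TT_sub, p3_T1, h1, four_lam, lam]; ring
  · rw [hd, if_neg (not_le.2 (by linarith)), if_neg (not_le.2 e)]

theorem hh_T1 (hf : 100 ≤ f0) : hh f0 (T1 f0) = h1 f0 := by rw [hh_top hf le_rfl, p3_T1]

theorem hasDerivAt_p3 (f0 r : ℝ) : HasDerivAt (p3 f0) (-(lam * p3 f0 r)) r := by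
  unfold p3
  refine ((((hasDerivAt_id r).sub_const (T1 f0)).const_mul lam).neg.exp.const_mul
    (h1 f0)).congr_deriv ?_
  simp only [id, Pi.neg_apply]; ring

theorem hasDerivAt_hh (hf : 100 ≤ f0) (hr : 0 < r) : HasDerivAt (hh f0) (hd f0 r) r := by
  have hT := T1_ge hf
  have hf0 : 0 < f0 := by linarith
  have d2 : ∀ r, HasDerivAt (fun r => 2 / 27 * (TT f0 - r) ^ 4 / f0 ^ 5)
      (-(8 / 27 * (TT f0 - r) ^ 3 / f0 ^ 5)) r := fun r => by
    refine (((((hasDerivAt_id r).const_sub (TT f0)).fun_pow 4).const_mul (2 / 27)).div_const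
      (f0 ^ 5)).congr_deriv ?_
    simp only [id]; push_cast; ring
  refine hasDerivAt_ite (fun _ => ?_) (fun _ => hasDerivAt_ite (fun _ => d2 r)
    (fun _ => hasDerivAt_p3 f0 r) ?_ fun e => ?_) ?_ fun e => ?_
  · simpa [one_div] using (hasDerivAt_inv hr.ne').sub_const (5 / (8 * f0))
  · rw [TT_sub, p3_T1, h1]
  · rw [e, TT_sub, p3_T1, h1, four_lam, lam]; ring
  · rw [if_pos (by linarith), TT]; field_simp; ring
  · rw [e, if_pos (by linarith), TT]; field_simp; ring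

theorem g1_eq (hr : 0 < r) : g1 f0 r = -(r ^ 2 * hd f0 r) := by
  unfold g1 hd A2 A3
  split_ifs
  · field_simp
  · ring
  · ring

theorem hh_pos (hf : 100 ≤ f0) (hr : 0 < r) : 0 < hh f0 r := by
  have hf0 : 0 < f0 := by linarith
  unfold hh
  split_ifs with h1 h2
  · have : 5 / (8 * f0) < 1 / r := by rw [div_lt_div_iff₀ (by positivity) hr]; linarith
    linarith
  · have : 0 < TT f0 - r := by linarith [T1_lt f0]
    positivity
  · exact p3_pos hf r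

theorem g1_pos (hf : 100 ≤ f0) (hr : 0 < r) : 0 < g1 f0 r := by
  have hf0 : 0 < f0 := by linarith
  unfold g1 A2 A3
  split_ifs with h1 h2
  · exact one_pos
  · have : 0 < TT f0 - r := by linarith [T1_lt f0]
    positivity
  · have := p3_pos hf r
    have := lam_pos
    positivity

theorem hd_neg (hf : 100 ≤ f0) (hr : 0 < r) : hd f0 r < 0 := by
  have := g1_pos hf hr
  rw [g1_eq hr] at this
  by_contra h
  nlinarith [mul_nonneg (sq_nonneg r) (not_lt.1 h)]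

theorem lam_r (hf : 100 ≤ f0) (h : T1 f0 ≤ r) : 40 ≤ lam * r := by
  have := T1_ge hf
  rw [lam]; linarith

theorem B2_nonneg (hf : 100 ≤ f0) (h : f0 ≤ r) : 0 ≤ B2 f0 r := by
  have hf0 : 0 < f0 := by linarith
  have : 0 ≤ r := by linarith
  have : 0 ≤ r - f0 := by linarith
  unfold B2; positivity

theorem B3_nonneg (hf : 100 ≤ f0) (h : T1 f0 ≤ r) : 0 ≤ B3 f0 r := by
  have := lam_r hf h
  have := T1_ge hf
  have := p3_pos hf r
  have := lam_pos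
  have : 0 ≤ r := by linarith
  have : 0 ≤ lam * r - 2 := by linarith
  unfold B3; positivity

theorem g2_nonneg (hf : 100 ≤ f0) (r : ℝ) : 0 ≤ g2 f0 r := by
  unfold g2
  split_ifs with h1 h2
  · exact le_rfl
  · exact B2_nonneg hf (not_le.1 h1).le
  · exact B3_nonneg hf (not_le.1 h2).le

theorem hasDerivAt_A2 (f0 r : ℝ) : HasDerivAt (A2 f0) (-B2 f0 r) r := by
  unfold A2 B2
  refine (((((hasDerivAt_id r).fun_pow 2).fun_mul (((hasDerivAt_id r).const_sub (TT f0)).fun_pow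
    3)).const_mul (8 / 27)).div_const (f0 ^ 5)).congr_deriv ?_
  simp only [id, TT]; push_cast; ring

theorem hasDerivAt_A3 (f0 r : ℝ) : HasDerivAt (A3 f0) (-B3 f0 r) r := by
  unfold A3 B3
  refine ((((hasDerivAt_id r).fun_pow 2).fun_mul (hasDerivAt_p3 f0 r)).const_mul lam).congr_deriv ?_
  simp only [id]; push_cast; ring

theorem A2_f0 (hf : 100 ≤ f0) : A2 f0 f0 = 1 := by
  have hf0 : 0 < f0 := by linarith
  rw [A2, TT]; field_simp; ring

theorem A2_T1 (f0 : ℝ) : A2 f0 (T1 f0) = A3 f0 (T1 f0) := by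
  rw [A2, A3, TT_sub, p3_T1, h1, four_lam, lam]; ring

theorem B2_T1 (hf : 100 ≤ f0) : B2 f0 (T1 f0) ≤ B3 f0 (T1 f0) := by
  have hf0 : 0 < f0 := by linarith
  have hT := T1_ge hf
  rw [B2, B3, TT_sub, p3_T1, h1, four_lam, lam]
  have e : T1 f0 - f0 = 3 / 5 * T1 f0 - 2 / 5 * (100 / 51) := by rw [T1_eq]; ring
  rw [e, ← sub_nonneg]
  have : 51 / 25 * (T1 f0 * (2 / 27 * (100 / 51) ^ 4 / f0 ^ 5) * (51 / 25 * T1 f0 - 2)) -
      40 / 27 * (T1 f0 * (100 / 51) ^ 2 * (3 / 5 * T1 f0 - 2 / 5 * (100 / 51))) / f0 ^ 5 =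
      8 / 27 * (100 / 51) ^ 2 * T1 f0 ^ 2 / f0 ^ 5 := by ring
  rw [this]; positivity

theorem g1_anti (hf : 100 ≤ f0) {x y : ℝ} (hxy : x ≤ y) : g1 f0 y ≤ g1 f0 x := by
  have hT := T1_ge hf
  have a2 : AntitoneOn (A2 f0) (Ici f0) := antitoneOn_of_deriv_nonpos (convex_Ici _)
    (fun r _ => (hasDerivAt_A2 f0 r).continuousAt.continuousWithinAt)
    (fun r _ => (hasDerivAt_A2 f0 r).differentiableAt.differentiableWithinAt) fun r hr => by
      rw [(hasDerivAt_A2 f0 r).deriv]; linarith [B2_nonneg hf (interior_subset hr)]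
  have a3 : AntitoneOn (A3 f0) (Ici (T1 f0)) := antitoneOn_of_deriv_nonpos (convex_Ici _)
    (fun r _ => (hasDerivAt_A3 f0 r).continuousAt.continuousWithinAt)
    (fun r _ => (hasDerivAt_A3 f0 r).differentiableAt.differentiableWithinAt) fun r hr => by
      rw [(hasDerivAt_A3 f0 r).deriv]; linarith [B3_nonneg hf (interior_subset hr)]
  have e1 := A2_f0 hf
  have e2 := A2_T1 f0
  have b1 : A2 f0 (T1 f0) ≤ A2 f0 f0 := a2 self_mem_Ici (mem_Ici.2 (by linarith)) (by linarith)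
  unfold g1
  split_ifs with h1 h2 h3 h4 h5 h6 h7
  · exact le_rfl
  · linarith
  · linarith
  · linarith [a2 self_mem_Ici (mem_Ici.2 (not_le.1 h1).le) (not_le.1 h1).le]
  · exact a2 (mem_Ici.2 (not_le.1 ‹_›).le) (mem_Ici.2 (not_le.1 h1).le) hxy
  · linarith
  · linarith [a3 self_mem_Ici (mem_Ici.2 (not_le.1 ‹¬y ≤ T1 f0›).le) (not_le.1 ‹¬y ≤ T1 f0›).le]
  · linarith [a3 self_mem_Ici (mem_Ici.2 (not_le.1 ‹¬y ≤ T1 f0›).le) (not_le.1 ‹¬y ≤ T1 f0›).le,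
      a2 (mem_Ici.2 (not_le.1 ‹¬x ≤ f0›).le) (mem_Ici.2 (by linarith : f0 ≤ T1 f0)) ‹x ≤ T1 f0›]
  · exact a3 (mem_Ici.2 (not_le.1 ‹¬x ≤ T1 f0›).le) (mem_Ici.2 (not_le.1 ‹¬y ≤ T1 f0›).le) hxy

theorem g1_le_one (hf : 100 ≤ f0) (r : ℝ) : g1 f0 r ≤ 1 := by
  have := g1_anti hf (min_le_left r f0)
  rwa [g1, g1, if_pos (min_le_right r f0)] at this

/-- `m = r |h'| / h ≥ 1` -/
theorem hdec (hf : 100 ≤ f0) (hr : 0 < r) : hh f0 r ≤ r * |hd f0 r| := by
  have hf0 : 0 < f0 := by linarith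
  rw [abs_of_neg (hd_neg hf hr)]
  unfold hh hd
  split_ifs with h1 h2
  · have : r * -(-(1 / r ^ 2)) = 1 / r := by field_simp
    have : 0 < 5 / (8 * f0) := by positivity
    linarith
  · have h3 : 0 < TT f0 - r := by linarith [T1_lt f0]
    have h4 : TT f0 - r ≤ 4 * r := by rw [TT]; linarith [not_le.1 h1]
    have : r * -(-(8 / 27 * (TT f0 - r) ^ 3 / f0 ^ 5)) - 2 / 27 * (TT f0 - r) ^ 4 / f0 ^ 5 =
      2 / 27 * (TT f0 - r) ^ 3 * (4 * r - (TT f0 - r)) / f0 ^ 5 := by ring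
    have h5 : 0 ≤ 4 * r - (TT f0 - r) := by linarith
    have : 0 ≤ 2 / 27 * (TT f0 - r) ^ 3 * (4 * r - (TT f0 - r)) / f0 ^ 5 := by positivity
    linarith
  · nlinarith [lam_r hf (not_le.1 h2).le, p3_pos hf r]

theorem abs_hd (hf : 100 ≤ f0) (hr : 0 < r) : |hd f0 r| = g1 f0 r / r ^ 2 := by
  rw [abs_of_neg (hd_neg hf hr), g1_eq hr]; field_simp

theorem abs_hd_le (hf : 100 ≤ f0) (hr : 0 < r) : |hd f0 r| ≤ 1 / r ^ 2 := by
  rw [abs_hd hf hr]; gcongr; exact g1_le_one hf r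

theorem hh_le (hf : 100 ≤ f0) (hr : 0 < r) : hh f0 r ≤ 1 / r := by
  have := abs_hd_le hf hr
  calc hh f0 r ≤ r * |hd f0 r| := hdec hf hr
    _ ≤ r * (1 / r ^ 2) := by gcongr
    _ = 1 / r := by field_simp

/-- `Ok.hpos` -/
theorem hpos (hf : 100 ≤ f0) (r : ℝ) (hr : 0 < r) :
    0 < hh f0 r ∧ hh f0 r ≤ 1 / r ∧ HasDerivAt (hh f0) (hd f0 r) r ∧ hd f0 r ≤ 0 :=
  ⟨hh_pos hf hr, hh_le hf hr, hasDerivAt_hh hf hr, (hd_neg hf hr).le⟩

/-- `Ok.hlow` -/
theorem hlow (hf : 100 ≤ f0) (r : ℝ) (hr : 0 < r) (h : r ≤ f0) :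
    3 / (8 * r) ≤ hh f0 r ∧ |hd f0 r| ≤ 3 / r * hh f0 r := by
  have hf0 : 0 < f0 := by linarith
  have h1 : 5 / (8 * f0) ≤ 5 / (8 * r) := by gcongr
  have h2 : 3 / (8 * r) ≤ hh f0 r := by
    have : 3 / (8 * r) = 1 / r - 5 / (8 * r) := by field_simp; ring
    rw [hh_low h]; linarith
  refine ⟨h2, (abs_hd_le hf hr).trans ?_⟩
  calc 1 / r ^ 2 ≤ 3 / r * (3 / (8 * r)) := by
        rw [div_mul_div_comm, div_le_div_iff₀ (by positivity) (by positivity)]; nlinarith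
    _ ≤ _ := by gcongr

/-- `Ok.hhigh` -/
theorem hhigh (hf : 100 ≤ f0) (r : ℝ) (h : f0 ≤ r) : |hd f0 r| ≤ lam * hh f0 r := by
  have hf0 : 0 < f0 := by linarith
  rw [abs_of_neg (hd_neg hf (by linarith))]
  rcases le_total r (T1 f0) with h2 | h2
  · rw [hh_mid hf h h2, hd_mid hf h h2]
    have h3 : 0 < TT f0 - r := by linarith [T1_lt f0]
    have h4 : 0 ≤ lam * (TT f0 - r) - 4 := by rw [T1_eq] at h2; rw [lam, TT]; linarith
    have : lam * (2 / 27 * (TT f0 - r) ^ 4 / f0 ^ 5) - -(-(8 / 27 * (TT f0 - r) ^ 3 / f0 ^ 5)) =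
      2 / 27 * (TT f0 - r) ^ 3 * (lam * (TT f0 - r) - 4) / f0 ^ 5 := by ring
    have : 0 ≤ 2 / 27 * (TT f0 - r) ^ 3 * (lam * (TT f0 - r) - 4) / f0 ^ 5 := by positivity
    linarith
  · rw [hh_top hf h2, hd_top hf h2, neg_neg]

theorem hh_strictAnti (hf : 100 ≤ f0) : StrictAntiOn (hh f0) (Ioi 0) :=
  strictAntiOn_of_deriv_neg (convex_Ioi _)
    (fun r hr => (hasDerivAt_hh hf hr).continuousAt.continuousWithinAt) fun r hr => by
      rw [interior_Ioi] at hr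
      rw [(hasDerivAt_hh hf hr).deriv]; exact hd_neg hf hr

theorem hh_anti (hf : 100 ≤ f0) {x y : ℝ} (hx : 0 < x) (hxy : x ≤ y) : hh f0 y ≤ hh f0 x :=
  (hh_strictAnti hf).antitoneOn hx (hx.trans_le hxy) hxy

/-- the tangent line of the first piece is a global lower bound -/
theorem le_hh (hf : 100 ≤ f0) (hr : 0 < r) : 1 / r - 5 / (8 * f0) ≤ hh f0 r := by
  have hf0 : 0 < f0 := by linarith
  rcases le_total r f0 with h | h
  · rw [hh_low h]
  · have hm : MonotoneOn (fun r => hh f0 r - r⁻¹) (Ioi 0) := monotoneOn_of_deriv_nonneg (convex_Ioi _)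
      (fun r hr => ((hasDerivAt_hh hf hr).fun_sub
        (hasDerivAt_inv (ne_of_gt hr))).continuousAt.continuousWithinAt)
      (fun r hr => by
        rw [interior_Ioi] at hr
        exact ((hasDerivAt_hh hf hr).fun_sub
          (hasDerivAt_inv (ne_of_gt hr))).differentiableAt.differentiableWithinAt)
      fun r hr => by
        rw [interior_Ioi] at hr
        rw [((hasDerivAt_hh hf hr).fun_sub (hasDerivAt_inv (ne_of_gt hr))).deriv]
        have := abs_hd_le hf hr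
        rw [one_div] at this
        linarith [neg_abs_le (hd f0 r)]
    have := hm hf0 hr h
    simp only [hh_low le_rfl, one_div] at this ⊢
    linarith

/-- amplification on the middle piece -/
theorem m_mid (hf : 100 ≤ f0) (h : f0 ≤ r) (h' : r ≤ T1 f0) :
    |hd f0 r| * (TT f0 - r) = 4 * hh f0 r := by
  rw [abs_of_neg (hd_neg hf (by linarith)), hh_mid hf h h', hd_mid hf h h']; ring

theorem m_top (hf : 100 ≤ f0) (h : T1 f0 ≤ r) : |hd f0 r| = lam * hh f0 r := by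
  rw [abs_of_neg (hd_neg hf (by linarith [T1_ge hf])), hh_top hf h, hd_top hf h, neg_neg]

/-! ### the convex profile -/

theorem slp_H1 (hf : 100 ≤ f0) {y : ℝ} (hy : 0 < y) : Slp (H1 f0) y (H2 f0 y) := by
  have hT := T1_ge hf
  have hi := hasDerivAt_inv hy.ne'
  have hc : ContinuousAt (fun s : ℝ => s⁻¹) y := hi.continuousAt
  have d1 : HasDerivAt (fun _ : ℝ => (1 : ℝ)) 0 y := hasDerivAt_const y 1
  have d2 : HasDerivAt (fun s => A2 f0 s⁻¹) (y⁻¹ ^ 2 * B2 f0 y⁻¹) y :=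
    ((hasDerivAt_A2 f0 y⁻¹).comp y hi).congr_deriv (by rw [inv_pow]; ring)
  have d3 : HasDerivAt (fun s => A3 f0 s⁻¹) (y⁻¹ ^ 2 * B3 f0 y⁻¹) y :=
    ((hasDerivAt_A3 f0 y⁻¹).comp y hi).congr_deriv (by rw [inv_pow]; ring)
  rcases lt_trichotomy y⁻¹ f0 with h | h | h
  · have e : H2 f0 y = 0 := by rw [H2, g2, if_pos h.le, mul_zero]
    refine Slp.of_or (Slp.of_deriv d1 e.le) (Slp.of_deriv d1 e.le) ?_ (if_pos h.le) (if_pos h.le)
    filter_upwards [hc.eventually (Iio_mem_nhds h)] with s hs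
    exact Or.inl (if_pos (le_of_lt hs))
  · have e : H2 f0 y = 0 := by rw [H2, g2, if_pos h.le, mul_zero]
    refine Slp.of_or (Slp.of_deriv d1 e.le) (Slp.of_deriv d2 ?_) ?_ (if_pos h.le) ?_
    · rw [e]; exact mul_nonneg (sq_nonneg _) (B2_nonneg hf h.ge)
    · filter_upwards [hc.eventually (Iio_mem_nhds (show y⁻¹ < T1 f0 by linarith))] with s hs
      by_cases h1 : s⁻¹ ≤ f0
      · exact Or.inl (if_pos h1)
      · exact Or.inr (by rw [H1, g1, if_neg h1, if_pos (le_of_lt hs)])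
    · rw [H1, g1, if_pos h.le, h, A2_f0 hf]
  · rcases lt_trichotomy y⁻¹ (T1 f0) with h' | h' | h'
    · have e : H2 f0 y = y⁻¹ ^ 2 * B2 f0 y⁻¹ := by rw [H2, g2, if_neg (not_le.2 h), if_pos h'.le]
      have e' : H1 f0 y = A2 f0 y⁻¹ := by rw [H1, g1, if_neg (not_le.2 h), if_pos h'.le]
      refine Slp.of_or (Slp.of_deriv d2 e.le) (Slp.of_deriv d2 e.le) ?_ e' e'
      filter_upwards [hc.eventually (Ioo_mem_nhds h h')] with s hs
      exact Or.inl (by rw [H1, g1, if_neg (not_le.2 hs.1), if_pos hs.2.le])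
    · have e : H2 f0 y = y⁻¹ ^ 2 * B2 f0 y⁻¹ := by rw [H2, g2, if_neg (not_le.2 h), if_pos h'.le]
      have e' : H1 f0 y = A2 f0 y⁻¹ := by rw [H1, g1, if_neg (not_le.2 h), if_pos h'.le]
      refine Slp.of_or (Slp.of_deriv d2 e.le) (Slp.of_deriv d3 ?_) ?_ e' ?_
      · rw [e, h']; gcongr; exact B2_T1 hf
      · filter_upwards [hc.eventually (Ioi_mem_nhds h)] with s hs
        by_cases h1 : s⁻¹ ≤ T1 f0
        · exact Or.inl (by rw [H1, g1, if_neg (not_le.2 hs), if_pos h1])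
        · exact Or.inr (by rw [H1, g1, if_neg (not_le.2 hs), if_neg h1])
      · rw [e', h', A2_T1]
    · have e : H2 f0 y = y⁻¹ ^ 2 * B3 f0 y⁻¹ := by
        rw [H2, g2, if_neg (not_le.2 h), if_neg (not_le.2 h')]
      have e' : H1 f0 y = A3 f0 y⁻¹ := by rw [H1, g1, if_neg (not_le.2 h), if_neg (not_le.2 h')]
      refine Slp.of_or (Slp.of_deriv d3 e.le) (Slp.of_deriv d3 e.le) ?_ e' e'
      filter_upwards [hc.eventually (Ioi_mem_nhds h')] with s hs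
      have hs' : T1 f0 < s⁻¹ := hs
      exact Or.inl (by rw [H1, g1, if_neg (not_le.2 (by linarith)), if_neg (not_le.2 hs')])

theorem hasDerivAt_HH (hf : 100 ≤ f0) {y : ℝ} (hy : 0 < y) : HasDerivAt (HH f0) (H1 f0 y) y := by
  refine ((hasDerivAt_hh hf (inv_pos.2 hy)).comp y (hasDerivAt_inv hy.ne')).congr_deriv ?_
  rw [H1, g1_eq (inv_pos.2 hy), inv_pow]; ring

theorem H1_eq (hf : 100 ≤ f0) {y : ℝ} (hy : 0 < y) : H1 f0 y * y = y⁻¹ * |hd f0 y⁻¹| := by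
  rw [H1, abs_hd hf (inv_pos.2 hy)]; field_simp

theorem H1_le_one (hf : 100 ≤ f0) (y : ℝ) : H1 f0 y ≤ 1 := g1_le_one hf _

theorem le_HH (hf : 100 ≤ f0) {y : ℝ} (hy : 0 < y) : y - 5 / (8 * f0) ≤ HH f0 y := by
  simpa [HH] using le_hh hf (inv_pos.2 hy)

theorem hdes (hf : 100 ≤ f0) : W.HDes (HH f0) (H1 f0) (H2 f0) where
  pos y hy := hh_pos hf (inv_pos.2 hy)
  hd y hy := hasDerivAt_HH hf hy
  pos1 y hy := g1_pos hf (inv_pos.2 hy)
  mono x hx y _ hxy := g1_anti hf (inv_anti₀ hx hxy)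
  le y hy := by rw [mul_comm, H1_eq hf hy]; exact hdec hf (inv_pos.2 hy)
  pos2 y _ := mul_nonneg (sq_nonneg _) (g2_nonneg hf _)
  jet y hy := W.jet_of_slope
    (by filter_upwards [Ioi_mem_nhds hy] with s hs using hasDerivAt_HH hf hs) (slp_H1 hf hy)

/-! ### Kato constants -/

theorem kato_mono {H G1 G2 : ℝ → ℝ} (h : W.HDes H G1 G2) {k0 a b κ κ' : ℝ} (ha : 0 < a) (hb : 0 < b)
    (hk : W.Kato H G1 G2 k0 a b κ) (h0 : 0 ≤ κ') (h1 : κ' ≤ κ) : W.Kato H G1 G2 k0 a b κ' := by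
  refine ⟨h0, hk.2.imp (fun h2 => le_trans ?_ h2) fun h2 => ⟨le_trans ?_ h2.1, le_trans ?_ h2.2⟩⟩
  · have := (h.pos1 _ (lt_max_of_lt_left ha : 0 < max a b)).le
    gcongr
  · gcongr
  · gcongr

/-- the bound of the power range -/
theorem kato_U (hf : 100 ≤ f0) {k0 a b κ : ℝ} (ha : 0 < a) (hb : 0 < b) (h0 : 0 ≤ κ)
    (h : κ * (W.U0 k0 (HH f0 a) (HH f0 b) + 5 / (4 * f0)) ≤ 2 * W.U0 k0 (HH f0 a) (HH f0 b)) :
    W.Kato (HH f0) (H1 f0) (H2 f0) k0 a b κ := by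
  refine ⟨h0, Or.inl (le_trans ?_ h)⟩
  have h1 := le_HH hf ha
  have h2 := le_HH hf hb
  have h3 : HH f0 a + HH f0 b ≤ W.U0 k0 (HH f0 a) (HH f0 b) := le_max_left _ _
  have e : 5 / (4 * f0) = 5 / (8 * f0) + 5 / (8 * f0) := by ring
  calc κ * H1 f0 (max a b) * (a + b) ≤ κ * 1 * (a + b) := by
        gcongr; exact H1_le_one hf _
    _ ≤ _ := by rw [mul_one]; exact mul_le_mul_of_nonneg_left (by linarith) h0

theorem kato_top (hf : 100 ≤ f0) {y : ℝ} (h : T1 f0 < y⁻¹) :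
    19 / 20 * H1 f0 y ^ 2 ≤ HH f0 y * H2 f0 y := by
  have hT := T1_ge hf
  have h1 := lam_r hf h.le
  rw [HH, H1, H2, hh_top hf h.le, g1, g2, if_neg (not_le.2 (by linarith)), if_neg (not_le.2 h),
    if_neg (not_le.2 (by linarith)), if_neg (not_le.2 h), A3, B3, ← sub_nonneg]
  set r := y⁻¹
  have : p3 f0 r * (r ^ 2 * (lam * (r * p3 f0 r * (lam * r - 2)))) -
      19 / 20 * (lam * (r ^ 2 * p3 f0 r)) ^ 2 =
      lam * r ^ 3 * p3 f0 r ^ 2 * ((lam * r - 40) / 20) := by ring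
  rw [this]
  have := lam_pos
  have : 0 ≤ r := by linarith
  have : 0 ≤ lam * r - 40 := by linarith
  positivity

theorem kato_mid (hf : 100 ≤ f0) {y : ℝ} (h : 5 / 4 * f0 ≤ y⁻¹) :
    1 / 4 * H1 f0 y ^ 2 ≤ HH f0 y * H2 f0 y := by
  have hf0 : 0 < f0 := by linarith
  rcases le_or_gt y⁻¹ (T1 f0) with h' | h'
  · rw [HH, H1, H2, hh_mid hf (by linarith) h', g1, g2, if_neg (not_le.2 (by linarith)), if_pos h',
      if_neg (not_le.2 (by linarith)), if_pos h', A2, B2, ← sub_nonneg]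
    set r := y⁻¹
    have : 2 / 27 * (TT f0 - r) ^ 4 / f0 ^ 5 *
        (r ^ 2 * (40 / 27 * (r * (TT f0 - r) ^ 2 * (r - f0)) / f0 ^ 5)) -
        1 / 4 * (8 / 27 * (r ^ 2 * (TT f0 - r) ^ 3) / f0 ^ 5) ^ 2 =
        64 / 729 * ((TT f0 - r) ^ 3) ^ 2 * r ^ 3 * (r - 5 / 4 * f0) / f0 ^ 10 := by ring
    rw [this]
    have : 0 ≤ r := by linarith
    have : 0 ≤ r - 5 / 4 * f0 := by linarith
    positivity
  · nlinarith [kato_top hf h', sq_nonneg (H1 f0 y)]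

theorem max_le_U0 (hf : 100 ≤ f0) {k0 a b : ℝ} (ha : 0 < a) (hb : 0 < b) :
    HH f0 a ≤ W.U0 k0 (HH f0 a) (HH f0 b) ∧ HH f0 b ≤ W.U0 k0 (HH f0 a) (HH f0 b) := by
  have h3 : HH f0 a + HH f0 b ≤ W.U0 k0 (HH f0 a) (HH f0 b) := le_max_left _ _
  exact ⟨by linarith [(hdes hf).pos b hb], by linarith [(hdes hf).pos a ha]⟩

/-- `κ = 1 / 4` is always admissible -/
theorem kato_q (hf : 100 ≤ f0) {k0 a b : ℝ} (ha : 0 < a) (hb : 0 < b) :
    W.Kato (HH f0) (H1 f0) (H2 f0) k0 a b (1 / 4) := by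
  have hf0 : 0 < f0 := by linarith
  have hm : 0 < max a b := lt_max_of_lt_left ha
  refine ⟨by norm_num, ?_⟩
  rcases le_total (5 / 4 * f0) (max a b)⁻¹ with h | h
  · exact Or.inr ⟨kato_mid hf (h.trans (inv_anti₀ ha (le_max_left _ _))),
      kato_mid hf (h.trans (inv_anti₀ hb (le_max_right _ _)))⟩
  · left
    have hr := inv_pos.2 hm
    have h1 : H1 f0 (max a b) * max a b ≤ 4 * HH f0 (max a b) := by
      rw [H1_eq hf hm, HH]
      set r := (max a b)⁻¹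
      rcases le_total r f0 with h2 | h2
      · have := (hlow hf r hr h2).2
        have h3 : r * (3 / r * hh f0 r) = 3 * hh f0 r := by field_simp
        nlinarith [hh_pos hf hr, mul_le_mul_of_nonneg_left this hr.le]
      · rw [← m_mid hf h2 (by linarith [T1_ge hf]), mul_comm]
        gcongr
        rw [TT]; linarith
    have h2 : HH f0 (max a b) ≤ W.U0 k0 (HH f0 a) (HH f0 b) := by
      rcases max_choice a b with e | e <;> rw [e]
      exacts [(max_le_U0 hf ha hb).1, (max_le_U0 hf ha hb).2]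
    have h3 : a + b ≤ 2 * max a b := by linarith [le_max_left a b, le_max_right a b]
    have h4 := ((hdes hf).pos1 _ hm).le
    nlinarith [mul_le_mul_of_nonneg_left h3 h4]

/-- the exponential range -/
theorem kato_exp (hf : 100 ≤ f0) {k0 a b : ℝ} (ha : 0 < a) (hb : 0 < b)
    (h : W.U0 k0 (HH f0 a) (HH f0 b) < h1 f0) :
    W.Kato (HH f0) (H1 f0) (H2 f0) k0 a b (19 / 20) := by
  have key : ∀ y, 0 < y → HH f0 y < h1 f0 → T1 f0 < y⁻¹ := fun y hy h2 => by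
    by_contra h3
    have := hh_anti hf (inv_pos.2 hy) (not_lt.1 h3)
    rw [hh_T1 hf] at this
    exact absurd h2 (not_lt.2 this)
  exact ⟨by norm_num, Or.inr ⟨kato_top hf (key a ha ((max_le_U0 hf ha hb).1.trans_lt h)),
    kato_top hf (key b hb ((max_le_U0 hf ha hb).2.trans_lt h))⟩⟩

end

end Crest.Agent.N067.Ds
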