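import Crest.Agent.N067.D.H
import Crest.Agent.N067.D.Defs

/-!
# Row 67, design (helper93): `D.hOut`
-/

set_option autoImplicit false

open Topology Filter Set

namespace Crest.Agent.N067.D

variable {f : ℝ}

theorem lam_eq : lam = Ds.lam := rfl
theorem T1_eq (f : ℝ) : T1 f = Ds.T1 f := rfl
theorem hT_eq (f : ℝ) : hT f = Ds.h1 f := by
  rw [hT, h2, Ds.h1, T1, lam_eq]; ring
theorem h3_eq (f r : ℝ) : h3 f r = Ds.p3 f r := by rw [h3, hT_eq]; rfl
theorem h_eq (f : ℝ) : h f = Ds.hh f := funext fun r => by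
  unfold h Ds.hh h2 Ds.TT
  rw [h3_eq, T1_eq]
  split_ifs
  · rfl
  · ring
  · rfl
theorem hd_eq (f : ℝ) : hd f = Ds.hd f := funext fun r => by
  unfold hd Ds.hd Ds.TT
  rw [h3_eq, T1_eq, lam_eq]
  split_ifs
  · rfl
  · ring
  · rfl
theorem H_eq (f : ℝ) : H f = Ds.HH f := funext fun y => by rw [H, h_eq, one_div]; rfl
theorem H1_eq (f : ℝ) {y : ℝ} (hy : 0 < y) : H1 f y = Ds.H1 f y := by
  rw [H1, hd_eq, one_div, Ds.H1, Ds.g1_eq (inv_pos.2 hy), inv_pow]; ring
theorem H2_eq (f : ℝ) (y : ℝ) : H2 f y = Ds.H2 f y := by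
  unfold H2 Ds.H2 Ds.g2 Ds.B2 Ds.B3 Ds.TT
  rw [h3_eq, T1_eq, lam_eq, one_div]
  split_ifs
  · ring
  · ring
  · ring

theorem kato_congr {k0 x y κ : ℝ} (hx : 0 < x) (hy : 0 < y)
    (h : W.Kato (Ds.HH f) (Ds.H1 f) (Ds.H2 f) k0 x y κ) : W.Kato (H f) (H1 f) (H2 f) k0 x y κ := by
  unfold W.Kato at h ⊢
  rwa [H_eq, H1_eq f hx, H1_eq f hy, H1_eq f (lt_max_of_lt_left hx), H2_eq, H2_eq]

theorem hdes (hf : 100 ≤ f) : W.HDes (H f) (H1 f) (H2 f) := by
  have h0 := Ds.hdes hf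
  rw [H_eq]
  exact ⟨h0.pos, fun y hy => H1_eq f hy ▸ h0.hd y hy, fun y hy => H1_eq f hy ▸ h0.pos1 y hy,
    fun x hx y hy hxy => by rw [H1_eq f hx, H1_eq f hy]; exact h0.mono hx hy hxy,
    fun y hy => H1_eq f hy ▸ h0.le y hy, fun y hy => H2_eq f y ▸ h0.pos2 y hy,
    fun y hy => by rw [H1_eq f hy, H2_eq]; exact h0.jet y hy⟩

theorem lower (hf : 100 ≤ f) (r : ℝ) (hr : 0 < r) :
    3 / (8 * f) * Real.exp (-(lam * r)) ≤ Ds.hh f r := by
  have hf0 : 0 < f := by linarith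
  have hl := Ds.lam_pos
  rw [lam_eq]
  rcases le_total r f with h1 | h1
  · have h2 : Real.exp (-(Ds.lam * r)) ≤ 1 := Real.exp_le_one_iff.2 (by nlinarith)
    calc 3 / (8 * f) * Real.exp (-(Ds.lam * r)) ≤ 3 / (8 * r) * 1 := by gcongr
      _ ≤ _ := by rw [mul_one]; exact (Ds.hlow hf r hr h1).1
  · have hD : ∀ s, f ≤ s → HasDerivAt (fun s => Ds.hh f s * Real.exp (Ds.lam * s))
        ((Ds.hd f s + Ds.lam * Ds.hh f s) * Real.exp (Ds.lam * s)) s := fun s hs => by
      refine ((Ds.hasDerivAt_hh hf (hf0.trans_le hs)).fun_mul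
        ((hasDerivAt_id s).const_mul Ds.lam).exp).congr_deriv ?_
      simp only [id]; ring
    have hm : MonotoneOn (fun s => Ds.hh f s * Real.exp (Ds.lam * s)) (Ici f) :=
      monotoneOn_of_deriv_nonneg (convex_Ici _)
        (fun s hs => (hD s hs).continuousAt.continuousWithinAt)
        (fun s hs => (hD s (interior_subset hs)).differentiableAt.differentiableWithinAt)
        fun s hs => by
          rw [(hD s (interior_subset hs)).deriv]
          have := Ds.hhigh hf s (interior_subset hs)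
          have h3 : 0 ≤ Ds.hd f s + Ds.lam * Ds.hh f s := by linarith [neg_abs_le (Ds.hd f s)]
          positivity
    have h2 : Ds.hh f f * Real.exp (Ds.lam * f) ≤ Ds.hh f r * Real.exp (Ds.lam * r) :=
      hm self_mem_Ici h1 h1
    have h3 := (Ds.hlow hf f hf0 le_rfl).1
    have h4 : 1 ≤ Real.exp (Ds.lam * f) := Real.one_le_exp (by positivity)
    have h5 : 3 / (8 * f) ≤ Ds.hh f r * Real.exp (Ds.lam * r) := by
      have : 0 < 3 / (8 * f) := by positivity
      nlinarith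
    rw [Real.exp_neg, ← div_eq_mul_inv, div_le_iff₀ (Real.exp_pos _)]
    exact h5

theorem h1_lt (hf : 100 ≤ f) : Ds.h1 f < 2 / f := by
  have hf0 : 0 < f := by linarith
  have h1 := Ds.hh_le hf (show 0 < Ds.T1 f by linarith [Ds.T1_ge hf])
  rw [Ds.hh_T1 hf] at h1
  refine h1.trans_lt ?_
  rw [div_lt_div_iff₀ (by linarith [Ds.T1_ge hf]) hf0]
  linarith [Ds.T1_ge hf]

theorem hOut (hf : 100 ≤ f) : HOut f := by
  have hf0 : 0 < f := by linarith
  refine ⟨?_, ?_, ?_, ?_, ?_, ?_, ?_, ?_, ?_, ?_, ?_, hdes hf, ?_, ?_, ?_, ?_⟩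
  · rw [h_eq, hd_eq]; exact Ds.hpos hf
  · rw [h_eq, hd_eq]; exact Ds.hlow hf
  · rw [h_eq, hd_eq]; exact Ds.hhigh hf
  · rw [h_eq, hd_eq]; exact fun r hr => Ds.hdec hf hr
  · rw [h_eq]; exact Ds.hh_strictAnti hf
  · rw [hd_eq]
    intro r hr
    rw [Ds.abs_hd hf hr, mul_div_cancel₀ _ (by positivity)]
    exact Ds.g1_le_one hf r
  · rw [h_eq]; exact fun r hr => Ds.le_hh hf hr
  · rw [hT_eq, T1_eq]
    exact ⟨Ds.h1_pos hf, h1_lt hf, Ds.T1_ge hf, (Ds.T1_lt f).le⟩
  · rw [h_eq, hT_eq]; exact fun r hr => Ds.hh_top hf hr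
  · rw [h_eq]; exact lower hf
  · unfold hd h3
    refine Measurable.ite measurableSet_Iic (by fun_prop)
      (Measurable.ite measurableSet_Iic (by fun_prop) (by fun_prop))
  · intro y hy
    rw [H1_eq f hy, H_eq]
    refine ⟨Ds.H1_le_one hf y, Ds.le_HH hf hy, ?_⟩
    simpa [Ds.HH] using Ds.hh_le hf (inv_pos.2 hy)
  · unfold kap
    exact Measurable.ite measurableSet_Iio measurable_const (Measurable.ite measurableSet_Iio
      measurable_const (Measurable.ite measurableSet_Iio measurable_const measurable_const))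
  · intro U
    unfold kap
    split_ifs <;> norm_num
  · intro k0 x y _ hx hy
    refine kato_congr hx hy ?_
    rw [H_eq]
    have e : 5 / (4 * f) = 5 / 8 * (2 / f) := by field_simp; ring
    have e' : 5 / (4 * f) = 1 / 64 * (80 / f) := by field_simp; ring
    unfold kap
    split_ifs with h1 h2 h3
    · exact Ds.kato_exp hf hx hy (hT_eq f ▸ h1)
    · exact Ds.kato_q hf hx hy
    · exact Ds.kato_U hf hx hy (by norm_num) (by linarith [not_lt.1 h2])
    · have : 0 < 80 / f := by positivity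
      exact Ds.kato_U hf hx hy (by norm_num) (by linarith [not_lt.1 h3])

end Crest.Agent.N067.D
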