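import Crest.Agent.N067.D.Defs

/-!
# Row 67, block D (helper1): clamps, power factors, comparison
-/

set_option autoImplicit false

open Topology Filter Set

namespace Crest.Agent.N067.D

noncomputable section

variable {a b' U : ℝ}

theorem cl_lip (a b' : ℝ) : LipschitzWith 1 (cl a b') :=
  (LipschitzWith.id.min_const b').const_max a

theorem cl_cont (a b' : ℝ) : Continuous (cl a b') := (cl_lip a b').continuous

theorem cl_mono (a b' : ℝ) : Monotone (cl a b') := fun _ _ h =>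
  max_le_max le_rfl (min_le_min h le_rfl)

theorem le_cl (a b' U : ℝ) : a ≤ cl a b' U := le_max_left _ _

theorem cl_le (h : a ≤ b') (U : ℝ) : cl a b' U ≤ b' := max_le h (min_le_right _ _)

theorem cl_of_le (h : U ≤ a) : cl a b' U = a := max_eq_left ((min_le_left _ _).trans h)

theorem cl_of_ge (hab : a ≤ b') (h : b' ≤ U) : cl a b' U = b' := by
  rw [cl, min_eq_right h, max_eq_right hab]

theorem cl_of_mem (h1 : a ≤ U) (h2 : U ≤ b') : cl a b' U = U := by
  rw [cl, min_eq_left h2, max_eq_right h1]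

theorem cl_pos (hb : 0 < b') (hU : 0 < U) : 0 < cl a b' U :=
  (lt_min hU hb).trans_le (le_max_right _ _)

theorem ch_one (h1 : a ≤ U) (h2 : U < b') : ch a b' U = 1 := if_pos ⟨h1, h2⟩
theorem ch_lt (h : U < a) : ch a b' U = 0 := if_neg fun h' => absurd h'.1 (not_le.2 h)
theorem ch_ge (h : b' ≤ U) : ch a b' U = 0 := if_neg fun h' => absurd h'.2 (not_lt.2 h)

theorem ch_cases (a b' U : ℝ) :
    (ch a b' U = 1 ∧ a ≤ U ∧ U < b') ∨ (ch a b' U = 0 ∧ (U < a ∨ b' ≤ U)) := by
  rcases lt_or_ge U a with h | h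
  · exact Or.inr ⟨ch_lt h, Or.inl h⟩
  rcases lt_or_ge U b' with h' | h'
  · exact Or.inl ⟨ch_one h h', h, h'⟩
  · exact Or.inr ⟨ch_ge h', Or.inr h'⟩

theorem meas_ch (a b' : ℝ) : Measurable (ch a b') :=
  Measurable.ite (measurableSet_Ico (a := a) (b := b')) measurable_const measurable_const

/-- the derivative of the clamp: from the right everywhere, two-sided off the kinks -/
theorem cl_der (hab : a ≤ b') {S : Set ℝ} (hS : S = Ici U ∨ (U ≠ a ∧ U ≠ b')) :
    HasDerivWithinAt (cl a b') (ch a b' U) S U := by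
  have key : ∀ g : ℝ → ℝ, ∀ g', HasDerivAt g g' U → ∀ p q : ℝ, p ≤ U → U < q →
      (p = U → S = Ici U) → (∀ x, p ≤ x → x < q → cl a b' x = g x) →
      HasDerivWithinAt (cl a b') g' S U := by
    intro g g' hg p q hp hq hpS he
    refine hg.hasDerivWithinAt.congr_of_eventuallyEq ?_ (he U hp hq)
    rcases hp.eq_or_lt with e | hlt
    · rw [hpS e]
      filter_upwards [Ico_mem_nhdsGE hq] with x hx using he x (e ▸ hx.1) hx.2
    · filter_upwards [mem_nhdsWithin_of_mem_nhds (Ioo_mem_nhds hlt hq)] with x hx using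
        he x hx.1.le hx.2
  rcases ch_cases a b' U with ⟨e, h1, h2⟩ | ⟨e, h | h⟩ <;> rw [e]
  · exact key id 1 (hasDerivAt_id U) a b' h1 h2
      (fun e => hS.resolve_right fun h => h.1 e.symm) fun x h1 h2 => cl_of_mem h1 h2.le
  · exact key (fun _ => a) 0 (hasDerivAt_const U a) (U - 1) a (by linarith) h
      (fun e => by linarith) fun x _ h2 => cl_of_le h2.le
  · exact key (fun _ => b') 0 (hasDerivAt_const U b') b' (U + 1) h (by linarith)
      (fun e => hS.resolve_right fun h => h.2 e.symm) fun x h1 _ => cl_of_ge hab h1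

/-- a smooth function of the clamp; `φ' U` only matters inside the window -/
theorem comp_cl_der (hab : a ≤ b') {S : Set ℝ} (hS : S = Ici U ∨ (U ≠ a ∧ U ≠ b'))
    {φ φ' : ℝ → ℝ} (hφ : HasDerivAt φ (φ' (cl a b' U)) (cl a b' U)) :
    HasDerivWithinAt (fun x => φ (cl a b' x)) (ch a b' U * φ' U) S U := by
  refine (hφ.comp_hasDerivWithinAt U (cl_der hab hS)).congr_deriv ?_
  rcases ch_cases a b' U with ⟨e, h1, h2⟩ | ⟨e, _⟩ <;> rw [e]
  · rw [cl_of_mem h1 h2.le, mul_comm]
  · simp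

theorem ll_comp {u : ℝ → ℝ} {Ω : Set ℝ} (hu : LocallyLipschitzOn Ω u) {F : ℝ → ℝ}
    (hF : ∀ x ∈ Ω, ContDiffAt ℝ 1 F (u x)) : LocallyLipschitzOn Ω fun x => F (u x) := by
  intro x hx
  obtain ⟨K, t, ht, hK⟩ := hu hx
  obtain ⟨L, s, hs, hL⟩ := (hF x hx).exists_lipschitzOnWith
  exact ⟨L * K, t ∩ u ⁻¹' s, inter_mem ht (hu.continuousOn x hx hs),
    hL.comp (hK.mono inter_subset_left) fun y hy => hy.2⟩

theorem ll_mul {u w : ℝ → ℝ} {Ω : Set ℝ} (hu : LocallyLipschitzOn Ω u)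
    (hw : LocallyLipschitzOn Ω w) : LocallyLipschitzOn Ω fun x => u x * w x := by
  have e : (fun x => u x * w x) = fun x => ((u x + w x) ^ 2 - (u x - w x) ^ 2) / 4 := by
    funext x; ring
  have h1 := ll_comp (hu.add hw) (F := fun y => y ^ 2) fun _ _ => by fun_prop
  have h2 := ll_comp (hu.sub hw) (F := fun y => y ^ 2) fun _ _ => by fun_prop
  rw [e]
  exact ll_comp (h1.sub h2) (F := fun y => y / 4) fun _ _ => by fun_prop

theorem ll_cl (a b' : ℝ) (Ω : Set ℝ) : LocallyLipschitzOn Ω (cl a b') :=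
  (cl_lip a b').locallyLipschitz.locallyLipschitzOn

/-- a power factor -/
def pf (a b' σ U : ℝ) : ℝ := (cl a b' U / b') ^ σ

variable {σ : ℝ}

theorem pf_pos (hb : 0 < b') (hU : 0 < U) : 0 < pf a b' σ U :=
  Real.rpow_pos_of_pos (div_pos (cl_pos hb hU) hb) _

theorem pf_nonneg (ha : 0 ≤ a) (hb : 0 < b') (U : ℝ) : 0 ≤ pf a b' σ U :=
  Real.rpow_nonneg (div_nonneg (ha.trans (le_cl _ _ _)) hb.le) _

theorem pf_le_one (ha : 0 ≤ a) (hab : a ≤ b') (hb : 0 < b') (hσ : 0 ≤ σ) (U : ℝ) :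
    pf a b' σ U ≤ 1 :=
  Real.rpow_le_one (div_nonneg (ha.trans (le_cl _ _ _)) hb.le) ((div_le_one hb).2 (cl_le hab U)) hσ

theorem pf_one (hab : a ≤ b') (hb : 0 < b') (h : b' ≤ U) : pf a b' σ U = 1 := by
  rw [pf, cl_of_ge hab h, div_self hb.ne', Real.one_rpow]

theorem pf_mono (ha : 0 ≤ a) (hb : 0 < b') (hσ : 0 ≤ σ) : Monotone (pf a b' σ) := fun x _ h =>
  Real.rpow_le_rpow (div_nonneg (ha.trans (le_cl _ _ x)) hb.le)
    (div_le_div_of_nonneg_right (cl_mono _ _ h) hb.le) hσ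

theorem pf_cont (hσ : 0 ≤ σ) : Continuous (pf a b' σ) :=
  ((cl_cont a b').div_const b').rpow_const fun _ => Or.inr hσ

theorem pf_lip (hb : 0 < b') : LocallyLipschitzOn (Ioi 0) (pf a b' σ) :=
  ll_comp (ll_cl a b' _) (F := fun y => (y / b') ^ σ) fun _ hx =>
    (contDiffAt_id.div_const b').rpow_const_of_ne (div_pos (cl_pos hb hx) hb).ne'

theorem pf_der (hab : a ≤ b') (hb : 0 < b') (hU : 0 < U) {S : Set ℝ}
    (hS : S = Ici U ∨ (U ≠ a ∧ U ≠ b')) :
    HasDerivWithinAt (pf a b' σ) (σ * ch a b' U * pf a b' σ U / U) S U := by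
  have h0 := cl_pos (a := a) hb hU
  have := comp_cl_der hab hS (φ := fun y => (y / b') ^ σ)
    (φ' := fun y => 1 / b' * σ * (y / b') ^ (σ - 1))
    (((hasDerivAt_id _).div_const b').rpow_const (Or.inl (div_pos h0 hb).ne'))
  refine this.congr_deriv ?_
  rcases ch_cases a b' U with ⟨e, h1, h2⟩ | ⟨e, _⟩ <;> rw [e]
  · rw [pf, cl_of_mem h1 h2.le, Real.rpow_sub_one (div_pos hU hb).ne']
    field_simp
  · simp

/-- comparison with a power -/
theorem pow_cmp {z s : ℝ → ℝ} (hc : Continuous z) (hp : ∀ U, 0 < U → 0 < z U)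
    (hd : ∀ U, 0 < U → HasDerivWithinAt z (s U * z U / U) (Ici U) U) {x y : ℝ} (hx : 0 < x)
    (hxy : x ≤ y) (σ : ℝ) :
    ((∀ U, x ≤ U → U < y → s U ≤ σ) → z y ≤ z x * (y / x) ^ σ) ∧
      ((∀ U, x ≤ U → U < y → σ ≤ s U) → z x * (y / x) ^ σ ≤ z y) := by
  have hy : 0 < y := hx.trans_le hxy
  have c1 : ContinuousOn (fun U => Real.log (z U)) (Icc x y) :=
    hc.continuousOn.log fun U hU => (hp U (hx.trans_le hU.1)).ne'
  have c2 : ContinuousOn (fun U => Real.log (z x) + σ * (Real.log U - Real.log x)) (Icc x y) :=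
    continuousOn_const.add (continuousOn_const.mul
      ((continuousOn_id.log fun U hU => (hx.trans_le hU.1).ne').sub continuousOn_const))
  have d1 : ∀ U ∈ Ico x y, HasDerivWithinAt (fun U => Real.log (z U)) (s U / U) (Ici U) U :=
    fun U hU => by
      have h0 := hx.trans_le hU.1
      refine ((hd U h0).log (hp U h0).ne').congr_deriv ?_
      have := (hp U h0).ne'
      field_simp
  have d2 : ∀ U ∈ Ico x y, HasDerivWithinAt
      (fun U => Real.log (z x) + σ * (Real.log U - Real.log x)) (σ / U) (Ici U) U :=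
    fun U hU => ((((Real.hasDerivAt_log (hx.trans_le hU.1).ne').sub_const _).const_mul σ).const_add
      _).hasDerivWithinAt
  have e : Real.log (z x * (y / x) ^ σ) = Real.log (z x) + σ * (Real.log y - Real.log x) := by
    rw [Real.log_mul (hp x hx).ne' (by positivity), Real.log_rpow (by positivity),
      Real.log_div hy.ne' hx.ne']
  have p1 : 0 < z x * (y / x) ^ σ := mul_pos (hp x hx) (by positivity)
  constructor
  · intro h
    rw [← Real.log_le_log_iff (hp y hy) p1, e]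
    exact image_le_of_deriv_right_le_deriv_boundary c1 d1 (by simp) c2 d2
      (fun U hU => div_le_div_of_nonneg_right (h U hU.1 hU.2) (hx.le.trans hU.1)) ⟨hxy, le_rfl⟩
  · intro h
    rw [← Real.log_le_log_iff p1 (hp y hy), e]
    exact image_le_of_deriv_right_le_deriv_boundary c2 d2 (by simp) c1 d1
      (fun U hU => div_le_div_of_nonneg_right (h U hU.1 hU.2) (hx.le.trans hU.1)) ⟨hxy, le_rfl⟩

end

end Crest.Agent.N067.D
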