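import Crest.Agent.N067.D.Z0
import Crest.Agent.N067.H.Quad

/-!
# Row 67, block D (helper1): the table of `s, b, c, kap`
-/

set_option autoImplicit false

open Topology Filter Set

namespace Crest.Agent.N067.D

noncomputable section

variable {f be Ub U : ℝ}

theorem Par.f0 (P : Par f be Ub) : 0 < f := by linarith [P.f1]

theorem Par.den (P : Par f be Ub) : 0 < 24 / 25 + be := by linarith [P.be0]

theorem Par.U30 (P : Par f be Ub) : 0 < U3 be Ub :=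
  mul_pos P.Ub0 (pow_pos (div_pos P.be0 P.den) 2)

theorem Par.U3le (P : Par f be Ub) : 9 * U3 be Ub ≤ Ub / 400 := by
  have h1 : be / (24 / 25 + be) ≤ 1 / 97 := by
    rw [div_le_div_iff₀ P.den (by norm_num)]; linarith [P.be1]
  have h2 := pow_le_pow_left₀ (div_pos P.be0 P.den).le h1 2
  have h3 := mul_le_mul_of_nonneg_left h2 P.Ub0.le
  rw [U3]
  linarith [P.Ub0]

theorem Par.leU3 (P : Par f be Ub) : 80 / f ≤ U3 be Ub := by
  have h1 : 1 ≤ 80 / U3 be Ub := by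
    rw [le_div_iff₀ P.U30]; linarith [P.U3le, P.Ub1]
  have h2 : 80 / U3 be Ub ≤ f := (le_self_pow₀ h1 (by norm_num)).trans P.big
  rw [div_le_iff₀ P.U30] at h2
  rw [div_le_iff₀ P.f0]
  linarith

theorem Par.o24 (P : Par f be Ub) : 0 < 2 / f ∧ 2 / f < 4 / f ∧ 4 / f < 80 / f :=
  ⟨div_pos two_pos P.f0, div_lt_div_of_pos_right (by norm_num) P.f0,
    div_lt_div_of_pos_right (by norm_num) P.f0⟩

theorem Par.g_eq (P : Par f be Ub) (U : ℝ) :
    (24 / 25 + be) * √(U3 be Ub / U) = be * √(Ub / U) := by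
  have e : U3 be Ub / U = (be / (24 / 25 + be)) ^ 2 * (Ub / U) := by rw [U3]; ring
  rw [e, Real.sqrt_mul (sq_nonneg _), Real.sqrt_sq (div_pos P.be0 P.den).le, ← mul_assoc,
    mul_div_cancel₀ _ P.den.ne']

/-- the table -/
theorem table (P : Par f be Ub) (hT0 : 0 < hT f) (hT2 : hT f < 2 / f) (hU : 0 < U) :
    (U < hT f ∧ s f be Ub U = 1 ∧ b f be Ub U = 6 / 5 ∧ bu f be Ub U = 0 ∧ kap f U = 19 / 20) ∨
    (hT f ≤ U ∧ U < 2 / f ∧ s f be Ub U = 3 / 4 ∧ b f be Ub U = 6 / 5 ∧ bu f be Ub U = 0 ∧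
      kap f U = 1 / 4) ∨
    (2 / f ≤ U ∧ U < 4 / f ∧ s f be Ub U = 3 / 4 ∧ kap f U = 6 / 5 ∧ ∃ w, 6 / 25 ≤ w ∧
      w ≤ 12 / 25 ∧ b f be Ub U = w + 18 / 25 ∧ bu f be Ub U = -w) ∨
    (4 / f ≤ U ∧ U < 80 / f ∧ s f be Ub U = 3 / 4 ∧ b f be Ub U = 24 / 25 ∧ bu f be Ub U = 0 ∧
      kap f U = 6 / 5) ∨
    (80 / f ≤ U ∧ U < U3 be Ub ∧ s f be Ub U = 51 / 50 ∧ b f be Ub U = 24 / 25 ∧
      bu f be Ub U = 0 ∧ kap f U = 39 / 20) ∨
    (U3 be Ub ≤ U ∧ U < Ub ∧ kap f U = 39 / 20 ∧ ∃ g, g = be * √(Ub / U) ∧ b f be Ub U = g - be ∧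
      bu f be Ub U = -(g / 2) ∧ be ≤ g ∧ g ≤ 24 / 25 + be ∧ (U = U3 be Ub → g = 24 / 25 + be) ∧
      (U ≤ Ub / 400 → 20 * be ≤ g) ∧ (Ub / 400 ≤ U → g ≤ 20 * be) ∧
      ((U < 9 * U3 be Ub ∧ s f be Ub U = 3 / 10 ∧ (24 / 25 + be) / 3 ≤ g) ∨
        (9 * U3 be Ub ≤ U ∧ s f be Ub U = 0 ∧ g ≤ (24 / 25 + be) / 3))) ∨
    (Ub ≤ U ∧ s f be Ub U = 0 ∧ b f be Ub U = 0 ∧ bu f be Ub U = 0 ∧ kap f U = 39 / 20) := by
  obtain ⟨o1, o2, o3⟩ := P.o24
  have o4 := P.leU3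
  have o5 := P.U3le
  have o6 := P.U30
  have o7 := P.Ub0
  have f0 := P.f0
  have e2 : 24 / 25 / (f * (2 / f)) = 12 / 25 := by field_simp; norm_num
  have e4 : 24 / 25 / (f * (4 / f)) = 6 / 25 := by field_simp; norm_num
  have lo : U ≤ U3 be Ub → √(U3 be Ub / cl (U3 be Ub) Ub U) = 1 := fun h => by
    rw [cl_of_le h, div_self o6.ne', Real.sqrt_one]
  rcases lt_or_ge U (hT f) with h1 | h1
  · refine Or.inl ⟨h1, ?_, ?_, ?_, if_pos h1⟩
    · rw [s, ch_one hU.le h1, ch_lt h1, ch_lt (by linarith), ch_lt (by linarith)]; norm_num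
    · rw [b, lo (by linarith), cl_of_le (by linarith), e2]; ring
    · rw [bu, ch_lt (by linarith), ch_lt (by linarith)]; ring
  rcases lt_or_ge U (2 / f) with h2 | h2
  · refine Or.inr (Or.inl ⟨h1, h2, ?_, ?_, ?_, ?_⟩)
    · rw [s, ch_ge h1, ch_one h1 (by linarith), ch_lt (by linarith), ch_lt (by linarith)]; norm_num
    · rw [b, lo (by linarith), cl_of_le h2.le, e2]; ring
    · rw [bu, ch_lt h2, ch_lt (by linarith)]; ring
    · rw [kap, if_neg (not_lt.2 h1), if_pos h2]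
  rcases lt_or_ge U (80 / f) with h8 | h8
  · have es : s f be Ub U = 3 / 4 := by
      rw [s, ch_ge h1, ch_one h1 h8, ch_lt h8, ch_lt (by linarith)]; norm_num
    have ek : kap f U = 6 / 5 := by
      rw [kap, if_neg (not_lt.2 h1), if_neg (not_lt.2 h2), if_pos h8]
    rcases lt_or_ge U (4 / f) with h4 | h4
    · refine Or.inr (Or.inr (Or.inl ⟨h2, h4, es, ek, 24 / 25 / (f * U), ?_, ?_, ?_, ?_⟩))
      · rw [← e4]; gcongr
      · rw [← e2]; gcongr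
      · rw [b, lo (by linarith), cl_of_mem h2 h4.le]; ring
      · rw [bu, ch_one h2 h4, ch_lt (by linarith)]; ring
    · refine Or.inr (Or.inr (Or.inr (Or.inl ⟨h4, h8, es, ?_, ?_, ek⟩)))
      · rw [b, lo (by linarith), cl_of_ge o2.le h4, e4]; ring
      · rw [bu, ch_ge h4, ch_lt (by linarith)]; ring
  have ek : kap f U = 39 / 20 := by
    rw [kap, if_neg (not_lt.2 h1), if_neg (not_lt.2 h2), if_neg (not_lt.2 h8)]
  have h4 : 4 / f ≤ U := by linarith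
  rcases lt_or_ge U (U3 be Ub) with h3 | h3
  · refine Or.inr (Or.inr (Or.inr (Or.inr (Or.inl ⟨h8, h3, ?_, ?_, ?_, ek⟩))))
    · rw [s, ch_ge h1, ch_ge h8, ch_one h8 h3, ch_lt h3]; norm_num
    · rw [b, lo h3.le, cl_of_ge o2.le h4, e4]; ring
    · rw [bu, ch_ge h4, ch_lt h3]; ring
  rcases lt_or_ge U Ub with hb | hb
  · refine Or.inr (Or.inr (Or.inr (Or.inr (Or.inr (Or.inl
      ⟨h3, hb, ek, _, rfl, ?_, ?_, ?_, ?_, ?_, ?_, ?_, ?_⟩)))))
    · rw [b, cl_of_ge o2.le h4, e4, cl_of_mem h3 hb.le, P.g_eq]; ring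
    · rw [bu, ch_ge h4, ch_one h3 hb, P.g_eq]; ring
    · exact le_mul_of_one_le_right P.be0.le (Real.one_le_sqrt.2 ((one_le_div hU).2 hb.le))
    · rw [← P.g_eq]
      exact mul_le_of_le_one_right P.den.le (Real.sqrt_le_one.2 ((div_le_one hU).2 h3))
    · intro e
      rw [← P.g_eq, e, div_self o6.ne', Real.sqrt_one, mul_one]
    · intro h
      rw [mul_comm]
      refine mul_le_mul_of_nonneg_left (Real.le_sqrt_of_sq_le ?_) P.be0.le
      rw [le_div_iff₀ hU]; linarith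
    · intro h
      rw [mul_comm 20]
      refine mul_le_mul_of_nonneg_left (Real.sqrt_le_iff.2 ⟨by norm_num, ?_⟩) P.be0.le
      rw [div_le_iff₀ hU]; linarith
    rw [← P.g_eq, div_eq_mul_one_div (24 / 25 + be) 3]
    rcases lt_or_ge U (9 * U3 be Ub) with h9 | h9
    · refine Or.inl ⟨h9, ?_, mul_le_mul_of_nonneg_left (Real.le_sqrt_of_sq_le ?_) P.den.le⟩
      · rw [s, ch_ge h1, ch_ge h8, ch_ge h3, ch_one h3 h9]; norm_num
      · rw [le_div_iff₀ hU]; linarith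
    · refine Or.inr ⟨h9, ?_,
        mul_le_mul_of_nonneg_left (Real.sqrt_le_iff.2 ⟨by norm_num, ?_⟩) P.den.le⟩
      · rw [s, ch_ge h1, ch_ge h8, ch_ge h3, ch_ge h9]; norm_num
      · rw [div_le_iff₀ hU]; linarith
  · refine Or.inr (Or.inr (Or.inr (Or.inr (Or.inr (Or.inr ⟨hb, ?_, ?_, ?_, ek⟩)))))
    · rw [s, ch_ge h1, ch_ge h8, ch_ge h3, ch_ge (by linarith)]; norm_num
    · rw [b, cl_of_ge o2.le h4, e4, cl_of_ge (by linarith) hb, P.g_eq, div_self o7.ne',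
        Real.sqrt_one]
      ring
    · rw [bu, ch_ge h4, ch_ge hb]; ring

theorem c_low (P : Par f be Ub) (h : U < Ub / 2) : c Ub U = 6 / 5 ∧ cu Ub U = 0 := by
  have := P.Ub0
  rw [c, cu, cl_of_le h.le, ch_lt h]
  constructor
  · field_simp; norm_num
  · ring

theorem c_bd (P : Par f be Ub) (hU : 0 < U) :
    0 ≤ c Ub U ∧ c Ub U ≤ 6 / 5 ∧ -(12 / 5) ≤ cu Ub U ∧ cu Ub U ≤ 0 := by
  have h0 := P.Ub0
  have h1 : cl (Ub / 2) Ub U / Ub ≤ 1 := (div_le_one h0).2 (cl_le (by linarith) U)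
  have h2 : 1 / 2 ≤ cl (Ub / 2) Ub U / Ub := by
    rw [le_div_iff₀ h0]; linarith [le_cl (Ub / 2) Ub U]
  rw [c, cu]
  refine ⟨by linarith, by linarith, ?_⟩
  rcases ch_cases (Ub / 2) Ub U with ⟨e, _, h3⟩ | ⟨e, _⟩ <;> rw [e]
  · have := (div_le_one h0).2 h3.le
    have := div_pos hU h0
    constructor <;> linarith
  · norm_num

theorem c_zero (P : Par f be Ub) (h : Ub ≤ U) : c Ub U = 0 ∧ cu Ub U = 0 := by
  have := P.Ub0
  rw [c, cu, cl_of_ge (by linarith) h, ch_ge h, div_self this.ne']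
  norm_num

/-- the coefficients are admissible for `H.quad`, with the reserve `b / 50` -/
theorem adm (P : Par f be Ub) (hT0 : 0 < hT f) (hT2 : hT f < 2 / f) (hU : 0 < U)
    (h : U ≤ Ub / 400) : 0 < b f be Ub U ∧ H.Adm (bu f be Ub U + 2 * s f be Ub U * b f be Ub U +
      b f be Ub U * (99 / 100 * kap f U - 1) - b f be Ub U / 50) (b f be Ub U) (s f be Ub U) := by
  have b0 := P.be0
  have b1 := P.be1
  have o7 := P.Ub0
  rcases table P hT0 hT2 hU with ⟨-, e1, e2, e3, e4⟩ | ⟨-, -, e1, e2, e3, e4⟩ |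
    ⟨-, -, e1, e4, w, w1, w2, e2, e3⟩ | ⟨-, -, e1, e2, e3, e4⟩ | ⟨-, -, e1, e2, e3, e4⟩ |
    ⟨-, -, e4, g, -, e2, e3, g1, g2, -, g3, -, ⟨-, e1, g4⟩ | ⟨-, e1, g4⟩⟩ | ⟨h', -⟩
  any_goals rw [e1, e2, e3, e4]
  · exact ⟨by norm_num, by constructor <;> norm_num⟩
  · exact ⟨by norm_num, by constructor <;> norm_num⟩
  · exact ⟨by linarith, by constructor <;> nlinarith⟩
  · exact ⟨by norm_num, by constructor <;> norm_num⟩
  · exact ⟨by norm_num, by constructor <;> norm_num⟩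
  · exact ⟨by linarith, by constructor <;> nlinarith⟩
  · have := g3 h
    exact ⟨by linarith, by constructor <;> nlinarith⟩
  · linarith

end

end Crest.Agent.N067.D
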